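import Vale.Agent.P057LU.Cor

/-!
Upper bound for the mean of a test function on the refined systems.
-/

set_option linter.unusedSectionVars false

open Matrix Finset
open Vale.Agent.P267.H775 Vale.Agent.P057G Vale.Agent.P057MA Vale.Agent.P057IV Vale.Agent.P057HU
open Vale.Agent.P057T1 (gsc ind)
open Vale.Agent.P057PI (dup sg qC)

namespace Vale.Agent.P057LU

noncomputable section

variable {V : Type} [Fintype V] [DecidableEq V] {ι : Type} [Fintype ι] [DecidableEq ι]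
  {S : MS V ι} {s : Stp V ι} {q : Finset ι} {b : V}

theorem pow_b (μ : ℝ) : ∀ i ∈ q ∩ S.st b, μ ^ (S.fc i ∩ {b}).card = μ := fun i hi => by
  rw [inter_singleton_of_mem (S.mem_st.1 (mem_inter.1 hi).2), card_singleton, pow_one]

theorem pow_nb (μ : ℝ) : ∀ i ∈ q \ S.st b, μ ^ (S.fc i ∩ {b}).card = 1 := fun i hi => by
  rw [inter_singleton_of_notMem fun e => (mem_sdiff.1 hi).2 (S.mem_st.2 e), card_empty, pow_zero]

theorem upp_fib (h : S.Ok) (hc : S.Cen) (hq : Cls S q) {d : ℕ} {lam ϑ : ℝ} (hd : 0 < d)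
    (hl : (d : ℝ) ≤ lam) (h0 : 0 < ϑ) (hϑ : ϑ ^ 2 * (lam ^ 2 + d ^ 2) ≤ lam ^ 2) (y : ι → ℝ)
    {m : (↥(q ∩ S.st b) → ℤ) → ℝ} {C : ℝ} (m0 : ∀ y, 0 ≤ m y) (m1 : ∀ y, |m y| ≤ C) :
    ∑' t : ↥(q ∩ S.st b) → ℤ, gs ((dil S {b} lam).fg q b y) (toR t) *
      ∑' x, gs (S.fg (qp S b q) b y) (toR x) * m (res qp_sub x + d • t) ≤
    vl (dil S {b} lam).G (q ∩ S.st b) * vl S.G ((qp S b q ∩ S.st b) \ q) *
      (ϑ⁻¹ ^ (q ∩ S.st b).card * vl S.G (q ∩ S.st b) *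
        (th ((2 * lam) ^ 2 • S.fg (qp S b q) b y)⁻¹ 0 ^ 3 + th ((2 * lam) ^ 2 • S.fg q b y)⁻¹ 0 ^ 3) +
      ∑' w, gs (ϑ ^ 2 • S.fg q b y) (toR w) * m w ^ 2) := by
  have d1 : (1 : ℝ) ≤ d := by exact_mod_cast hd
  have l1 : 1 ≤ lam := d1.trans hl
  have p : 0 < lam ^ 2 + (d : ℝ) ^ 2 := by positivity
  let σ : ι → ℝ := fun i => if i ∈ q then √(lam ^ 2 + d ^ 2) else d
  have hT := P057PK.ok_gsc h (s := σ) fun i => by
    simp only [σ]
    split_ifs <;> positivity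
  have hq' : Cls (S.gram (gsc S.G σ)) q := ⟨hq.blk, hq.dep⟩
  have σ1 : ∀ i ∈ q ∩ S.st b, σ i = √(lam ^ 2 + d ^ 2) := fun i hi => if_pos (mem_inter.1 hi).1
  have σ2 : ∀ i ∈ (qp S b q ∩ S.st b) \ q, σ i = d := fun i hi => if_neg (mem_sdiff.1 hi).2
  have hA := h.fg_pos q b y
  have hA' := h.fg_pos (qp S b q) b y
  have e0 : ∀ v, qq (S.fg (qp S b q) b y) v = qq (S.fg q b y) (res qp_sub v) +
      ln2 S ((qp S b q ∩ S.st b) \ q) (put _ v y) := fun v => by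
    rw [qq_fg h hc (cls_qp hq b), qq_res h hc hq, ln2_split h (hq.sat h), qp_in]
  have e2 : ∀ v, qq (S.fg q b y) (res qp_sub v) ≤ qq (S.fg (qp S b q) b y) v := fun v => by
    rw [e0]; exact le_add_of_nonneg_right (ln2_nonneg h _)
  obtain ⟨Q, hQ, e3, a1⟩ : ∃ Q : Matrix ↥(qp S b q ∩ S.st b) ↥(qp S b q ∩ S.st b) ℝ, Q.PosDef ∧
      (∀ v, qq Q v = lam ^ 2 * qq (S.fg q b y) (res qp_sub v) +
        d ^ 2 * qq (S.fg (qp S b q) b y) v) ∧
      vol Q = vl (gsc S.G σ) (q ∩ S.st b) * vl (gsc S.G σ) ((qp S b q ∩ S.st b) \ q) := by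
    refine ⟨_, hT.fg_pos (qp S b q) b y, fun v => ?_, (hT.vol_fg _ b y).trans
      ((vl_split hT.pd (hq'.sat hT) (qp S b q ∩ S.st b)).trans (by rw [qp_in]; rfl))⟩
    refine (qq_fg hT (hc.gram _) ⟨(cls_qp hq b).blk, (cls_qp hq b).dep⟩ b y v).trans ?_
    refine (ln2_split hT (hq'.sat hT) (qp S b q ∩ S.st b) (put (qp S b q ∩ S.st b) v y)).trans ?_
    rw [qp_in, P057T1.ln2_gsc σ1, P057T1.ln2_gsc σ2, e0, qq_res h hc hq, Real.sq_sqrt p.le]
    ring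
  have k1 := fib_up qp_sub hA ((ok_dil h {b} l1).fg_pos q b y) hA' hQ hd (L := lam ^ 2)
    (by positivity) (θ := ϑ ^ 2) (by positivity) hϑ (fun t =>
      (qq_fg (ok_dil h {b} l1) (cen_dil hc _ _) ⟨hq.blk, hq.dep⟩ b y t).trans
        ((P057T1.ln2_gsc (pow_b lam) _).trans (congrArg _ (qq_fg h hc hq b y t).symm))) e2 e3 m0 m1
  refine k1.trans ?_
  set μ := th ((2 * lam) ^ 2 • S.fg (qp S b q) b y)⁻¹ 0
  set ν := th ((2 * lam) ^ 2 • S.fg q b y)⁻¹ 0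
  have μ0 : 0 ≤ μ := th_nonneg _ _
  have ν0 : 0 ≤ ν := th_nonneg _ _
  have k2 : th Q⁻¹ 0 ≤ μ :=
    th_inv_mono hQ (hA'.smul (by positivity)) (fun v => by
      rw [e3, qq_smul_mat]
      have a1 := mul_le_mul_of_nonneg_left (e2 v) (sq_nonneg lam)
      have a2 := mul_le_mul_of_nonneg_right (pow_le_pow_left₀ (by positivity) hl 2)
        (qq_nonneg hA'.posSemidef v)
      nlinarith [mul_nonneg (sq_nonneg lam) (qq_nonneg hA'.posSemidef v)]) 0
  have k3 : (d : ℝ) ^ ((qp S b q ∩ S.st b) \ (q ∩ S.st b)).card * vol Q ≤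
      vl (dil S {b} lam).G (q ∩ S.st b) * vl S.G ((qp S b q ∩ S.st b) \ q) := by
    have a2 : vl (dil S {b} lam).G (q ∩ S.st b) = _ :=
      P057T1.vl_gsc S.G (by linarith) (pow_b (q := q) lam)
    rw [a1, a2, P057T1.vl_gsc _ (Real.sqrt_pos.2 p) σ1, P057T1.vl_gsc _ (by positivity) σ2, qp_rest,
      Real.sqrt_sq (Nat.cast_nonneg d), Real.sq_sqrt p.le, mul_left_comm, ← mul_assoc (_ ^ _),
      ← mul_pow, mul_inv_cancel₀ (by positivity), one_pow, one_mul]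
    have := vl_pos h.pd (q ∩ S.st b)
    have := vl_pos h.pd ((qp S b q ∩ S.st b) \ q)
    gcongr
    exact le_add_of_nonneg_right (sq_nonneg _)
  have hθ := hA.smul (by positivity : 0 < ϑ ^ 2)
  have k4 : th (ϑ ^ 2 • S.fg q b y) 0 ≤ ϑ⁻¹ ^ (q ∩ S.st b).card * vl S.G (q ∩ S.st b) * ν := by
    rw [th_zero_eq hθ, vol_smul (by positivity), Real.sqrt_sq h0.le, h.vol_fg, Fintype.card_coe]
    refine mul_le_mul_of_nonneg_left (th_inv_mono hθ (hA.smul (by positivity)) (fun v => ?_) 0)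
      (mul_nonneg (by positivity) (vl_pos h.pd _).le)
    rw [qq_smul_mat, qq_smul_mat]
    refine mul_le_mul_of_nonneg_right ?_ (qq_nonneg hA.posSemidef v)
    have : ϑ ^ 2 ≤ 1 := by nlinarith [mul_nonneg (sq_nonneg ϑ) (sq_nonneg (d : ℝ))]
    nlinarith
  have m2 : ∀ w, |m w ^ 2| ≤ C ^ 2 := fun w => by
    rw [abs_pow]; exact pow_le_pow_left₀ (abs_nonneg _) (m1 w) 2
  have k5 : μ * ∑' w, gs (ϑ ^ 2 • S.fg q b y) (toR w) * m w ≤ μ ^ 2 * th (ϑ ^ 2 • S.fg q b y) 0 +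
      ∑' w, gs (ϑ ^ 2 • S.fg q b y) (toR w) * m w ^ 2 := by
    have w := wt_gs0 hθ
    rw [← tsum_gs0, ← tsum_mul_left, ← tsum_mul_left, ← (w.2.mul_left _).tsum_add (w.summ m2)]
    refine ((w.summ m1).mul_left _).tsum_le_tsum (fun x => ?_) ((w.2.mul_left _).add (w.summ m2))
    nlinarith [mul_nonneg (w.1 x) (sq_nonneg (μ - m x)), mul_nonneg (w.1 x) (mul_nonneg μ0 (m0 x))]
  have k6 : μ ^ 2 * ν ≤ μ ^ 3 + ν ^ 3 := by
    nlinarith [mul_nonneg (add_nonneg μ0 ν0) (sq_nonneg (μ - ν)), mul_nonneg μ0 (sq_nonneg ν)]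
  have p1 : 0 ≤ ϑ⁻¹ ^ (q ∩ S.st b).card * vl S.G (q ∩ S.st b) :=
    mul_nonneg (by positivity) (vl_pos h.pd _).le
  have p2 : 0 ≤ ∑' w, gs (ϑ ^ 2 • S.fg q b y) (toR w) * m w :=
    tsum_nonneg fun _ => mul_nonneg (gs_pos _ _).le (m0 _)
  rw [th_zero_eq hQ, ← mul_assoc, mul_assoc _ (th _ _)]
  refine mul_le_mul k3 ((mul_le_mul_of_nonneg_right k2 p2).trans (k5.trans ?_))
    (mul_nonneg (th_nonneg _ _) p2)
    (mul_pos (vl_pos (ok_dil h {b} l1).pd _) (vl_pos h.pd _)).le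
  have a1 := mul_le_mul_of_nonneg_left k4 (sq_nonneg μ)
  have a2 := mul_le_mul_of_nonneg_left k6 p1
  linarith

theorem upp_core (h : S.Ok) (hc : S.Cen) (hx : (xt S s).Ok) (hG : s.G.PosDef) (hq : Cls S q)
    {ϑ : ℝ} (hd : 0 < s.d) (hl : (s.d : ℝ) ≤ s.lam) (h0 : 0 < ϑ)
    (hϑ : ϑ ^ 2 * (s.lam ^ 2 + s.d ^ 2) ≤ s.lam ^ 2) {M : (ι → ℝ) → ℝ} {C : ℝ}
    (m0 : ∀ y, 0 ≤ M y) (m1 : ∀ y, |M y| ≤ C) (hM : On q M)
    (hm : ∀ r, Cls S r → (dup S 0 (sg S 0 s.b fun _ : Fin 3 => 2 * s.lam)).mass (qC S 0 r s.b) ≤ 2) :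
    ∃ N, HasSum (fun o => S.wt (fce S {s.b}) o *
        ∑' z, (rf S s o).wt (qr S s q) z * M (mp S s o (toR z))) N ∧
      N / vl (rf S s 0).G (qr S s q) ≤ (4 * ϑ⁻¹ ^ (q ∩ S.st s.b).card +
        (∑' y, (nar S ϑ).wt q y * M (toR y) ^ 2) / vl S.G q) * vl S.G (fce S {s.b}) := by
  have d1 : (1 : ℝ) ≤ s.d := by exact_mod_cast hd
  have l1 : 1 ≤ s.lam := d1.trans hl
  obtain ⟨N, h1, h2⟩ := dec_qr h hc hx hq m0 m1
  refine ⟨N, h1, ?_⟩
  have hD := ok_dil h {s.b} l1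
  have hN := ok_nar h h0.ne'
  have k1 := hD.hasSum_fibre q s.b h2.summable
  have k2 := hN.hasSum_fibre q s.b (F := fun y => M (toR y) ^ 2) (hN.summable_re q (C := C ^ 2)
    fun w => by rw [abs_pow]; exact pow_le_pow_left₀ (abs_nonneg _) (m1 _) 2)
  have k3 := cube_mass h hc (cls_qp hq s.b) s.b (c := 2 * s.lam) (by linarith)
  have k4 := cube_mass h hc hq s.b (c := 2 * s.lam) (by linarith)
  simp only [(cen_dil hc _ _).fcn, (cen_nar hc _).fcn, sub_zero, h2.tsum_eq, fg_nar,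
    qp_out hc] at k1 k2 k3
  have ϑ1 : ϑ ^ 2 ≤ 1 := by nlinarith [mul_nonneg (sq_nonneg ϑ) (sq_nonneg (s.d : ℝ))]
  have p1 := vl_pos h.pd (q ∩ S.st s.b)
  have p2 := vl_pos h.pd (q \ S.st s.b)
  have p3 := vl_pos h.pd ((qp S s.b q ∩ S.st s.b) \ q)
  have p4 := vl_pos hD.pd (q ∩ S.st s.b)
  have p5 := vl_pos h.pd (fce S {s.b})
  have eb : blk (dil S {s.b} s.lam).G (q \ S.st s.b) = blk S.G (q \ S.st s.b) :=
    (P057T1.blk_gsc S.G (pow_nb s.lam)).trans (by rw [one_pow, one_smul])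
  have k5 := hasSum_le (fun y => by
    have e0 : (dil S {s.b} s.lam).wt (q \ S.st s.b) y = S.wt (q \ S.st s.b) y := MS.wt_gram eb y
    have a1 := upp_fib h hc hq hd hl h0 hϑ (toR y) (b := s.b)
      (m := fun w => M (toR (put _ w y))) (fun _ => m0 _) fun _ => m1 _
    have a2 := mul_le_mul_of_nonneg_right (wt_le_nar h ϑ1 (q \ S.st s.b) y)
      (tsum_nonneg fun w => mul_nonneg (gs_pos _ _).le (sq_nonneg _) :
        0 ≤ ∑' w : ↥(q ∩ S.st s.b) → ℤ,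
          gs (ϑ ^ 2 • S.fg q s.b (toR y)) (toR w) * M (toR (put _ w y)) ^ 2)
    refine le_trans (le_of_eq (congrArg₂ (· * ·) e0 (tsum_congr fun t => congrArg _
      (tsum_congr fun x => ?_)))) ((mul_le_mul_of_nonneg_left a1 (MS.wt_nonneg _ y)).trans ?_)
    · have e1 : ∀ j ∉ S.st s.b, put (q ∩ S.st s.b) t y j = y j := fun j hj =>
        put_neg _ _ fun a => hj (mem_inter.1 a).2
      refine congrArg₂ (· * ·) (congrArg (gs · _) (fg_congr _ _ fun j hj =>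
        congrArg Int.cast (e1 j hj))) (hM _ _ fun i hi => congrArg Int.cast ?_)
      by_cases hb : i ∈ S.st s.b
      · have a := mem_inter.2 ⟨hi, hb⟩
        rw [mix_pos _ _ hb, Pi.add_apply, put_pos _ _ (qp_sub a), put_pos _ _ a]
        exact congrArg (fun n : ℤ => x ⟨i, qp_sub a⟩ + s.d • n) (put_pos t y a)
      · rw [mix_neg _ _ hb, put_neg (r := q ∩ S.st s.b) _ y fun a => hb (mem_inter.1 a).2]
        exact e1 i hb
    · rw [mul_left_comm]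
      refine mul_le_mul_of_nonneg_left ?_ (mul_pos p4 p3).le
      rw [mul_add, mul_left_comm, mul_add]
      exact add_le_add le_rfl a2) k1
    ((((k3.add k4).mul_left (ϑ⁻¹ ^ (q ∩ S.st s.b).card * vl S.G (q ∩ S.st s.b))).add k2).mul_left
      (vl (dil S {s.b} s.lam).G (q ∩ S.st s.b) * vl S.G ((qp S s.b q ∩ S.st s.b) \ q)))
  have e2 := vl_qr h hc hx l1 hG (q := q) 0
  rw [hD.vl_st q s.b, vl_split h.pd (hq.sat h) (qp S s.b q ∩ S.st s.b), qp_in,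
    show vl (dil S {s.b} s.lam).G (q \ (dil S {s.b} s.lam).st s.b) = vl S.G (q \ S.st s.b) from
      congrArg vol eb] at e2
  rw [eq_div_of_mul_eq p5.ne' e2, h.vl_st q s.b, div_div_eq_mul_div, mul_div_right_comm]
  refine mul_le_mul_of_nonneg_right ?_ p5.le
  change N / (vl (dil S {s.b} s.lam).G (q ∩ S.st s.b) * _ * _) ≤ _
  rw [div_le_iff₀ (by positivity)]
  refine k5.trans ?_
  have a3 := mul_le_mul_of_nonneg_right (add_le_add (hm _ (cls_qp hq s.b)) (hm _ hq)) p2.le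
  have a4 := mul_le_mul_of_nonneg_left a3
    (by positivity : 0 ≤ ϑ⁻¹ ^ (q ∩ S.st s.b).card * vl S.G (q ∩ S.st s.b))
  refine (mul_le_mul_of_nonneg_left (add_le_add (le_of_eq_of_le (by ring) a4) le_rfl)
    (mul_pos p4 p3).le).trans (le_of_eq ?_)
  field_simp
  ring

variable {B : Finset V} {Λ P R Z : ℝ}

theorem cls_inl (hq : Cls S q) : Cls (xt S s) (q.image Sum.inl) := by
  constructor
  · intro i j e1 e2 hi
    obtain ⟨a, ha, rfl⟩ := mem_image.1 hi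
    rcases j with j | j
    exacts [mem_image_of_mem _ (hq.blk a j e1 e2 ha), absurd e2 (lv_lt (S := S) a).ne]
  · intro i hi j e
    obtain ⟨a, ha, rfl⟩ := mem_image.1 hi
    rcases j with j | j
    exacts [mem_image_of_mem _ (hq.dep a ha j e), absurd e.2 (lv_lt (S := S) a).not_gt]

theorem mass_three (h : S.Ok) (hc : S.Cen) (hs : Good S s B Λ P R) (hΛ : 1 ≤ Λ) (hZ : 3 ≤ Z)
    (hm : Mg (xt S s) Z) {a : ℝ} (h0 : 0 < a) (h1 : a ≤ 1) (hq : Cls S q) :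
    (dup (nar S a) 0 (sg (nar S a) 0 s.b fun _ : Fin 3 => 2 * s.lam)).mass
      (qC (nar S a) 0 q s.b) ≤ 2 := by
  have l1 := hs.one_le hΛ
  have hD := ok_dil h {s.b} l1
  have k1 : Smo (dil S {s.b} s.lam) q ⌈Z⌉₊ (Real.exp Z) (Real.exp (-Z)) :=
    smo_top.1 (Smo.mono (hs.ok_xt hΛ h) (hs.cen_xt hΛ h hc) (cls_univ _) (cls_inl hq) hm
      (subset_univ _) le_rfl (Real.exp_pos _) le_rfl le_rfl)
  have k2 := P057PI.mass_qC (c0 := (0 : Fin 3)) hD (cen_dil hc _ _) ⟨hq.blk, hq.dep⟩ s.b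
    (Real.exp_pos Z).ne' k1 (by simpa using Nat.ceil_mono hZ)
  have k3 := P057PK.mass_gsc (ok_blow hD (0 : Fin 3)) (cen_blow (cen_dil hc _ _) _)
    (s := fun i => a * if s.b ∈ S.fc i.1.1 then 2 else 1) (fun i j e => by
      rw [show S.fc i.1.1 = S.fc j.1.1 from
        Subset.antisymm (fc_blow_sub.1 e.le).1 (fc_blow_sub.1 e.ge).1])
    (fun i => by split_ifs <;> positivity) (Real.exp_pos Z) (fun i => by
      have := Real.add_one_le_exp Z
      split_ifs <;> linarith) (qC (dil S {s.b} s.lam) 0 q s.b)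
  have e : ∀ i, s.lam ^ (S.fc i ∩ {s.b}).card = if s.b ∈ S.fc i then s.lam else 1 := fun i => by
    split_ifs with hi
    · rw [inter_singleton_of_mem hi, card_singleton, pow_one]
    · rw [inter_singleton_of_notMem hi, card_empty, pow_zero]
  refine le_trans (le_of_eq (P057T1.mass_gram (S := blow S 0) (congrArg (blk · _) ?_)))
    (k3.trans (k2.trans (by linarith [Real.exp_le_one_iff.2 (by linarith : -Z ≤ 0)])))
  ext i j
  change (if s.b ∈ S.fc i.1.1 then 2 * s.lam else 1) *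
      (if i.1.2 = j.1.2 then a ^ 2 * S.G i.1.1 j.1.1 else 0) *
      (if s.b ∈ S.fc j.1.1 then 2 * s.lam else 1) =
    (a * if s.b ∈ S.fc i.1.1 then 2 else 1) * (if i.1.2 = j.1.2 then
      s.lam ^ (S.fc i.1.1 ∩ {s.b}).card * S.G i.1.1 j.1.1 * s.lam ^ (S.fc j.1.1 ∩ {s.b}).card
      else 0) * (a * if s.b ∈ S.fc j.1.1 then 2 else 1)
  rw [e, e]
  split_ifs <;> ring

theorem blk_qr (o : ι → ℤ) (a : ℝ) :
    blk (a ^ 2 • (rf S s o).G) (qr S s q) = blk (rf (nar S a) s o).G (qr S s q) := by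
  ext ⟨i, hi⟩ ⟨j, hj⟩
  rcases i with (i | i) | i <;> rcases j with (j | j) | j <;>
    first | exact absurd hi qr_new | exact absurd hj qr_new | exact mul_zero _ | rfl | skip
  change a ^ 2 * (_ * S.G i j * _) = _ * (a ^ 2 * S.G i j) * _
  simp only [nar, MS.gram]
  ring

theorem wt_nar_rf (o : ι → ℤ) (a : ℝ) (z : (ι ⊕ s.X) ⊕ Lk S s.b → ℤ) :
    (nar (rf S s o) a).wt (qr S s q) z = (rf (nar S a) s o).wt (qr S s q) z := by
  have e : rf (nar S a) s o = (rf S s o).gram (rf (nar S a) s o).G := rfl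
  rw [e]
  exact MS.wt_gram (S := (rf S s o).gram (rf (nar S a) s o).G) (blk_qr o a) z

/-- the mean over the base points of a test function on the refined systems -/
theorem upp (h : S.Ok) (hc : S.Cen) (hs : Good S s B Λ P R) (hΛ : 1 ≤ Λ) (hZ : 3 ≤ Z)
    (hm : Mg (xt S s) Z) (hq : Cls S q) {a a' K : ℝ} (h0 : 0 < a') (ha : 0 < a) (h1 : a ≤ 1)
    (hθ : a' ^ 2 * (1 + 1 / Λ ^ 2) ≤ a ^ 2) (hK : a'⁻¹ ^ Fintype.card ι ≤ K)
    {M : (ι → ℝ) → ℝ} {C : ℝ} (m0 : ∀ y, 0 ≤ M y) (m1 : ∀ y, |M y| ≤ C) (hM : On q M) :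
    Summable (fun o => S.wt (fce S {s.b}) o * ((∑' z, (nar (rf S s o) a).wt (qr S s q) z *
      M (mp S s o (toR z))) / vl (rf S s o).G (qr S s q))) ∧
    ∑' o, S.wt (fce S {s.b}) o * ((∑' z, (nar (rf S s o) a).wt (qr S s q) z *
      M (mp S s o (toR z))) / vl (rf S s o).G (qr S s q)) ≤
      K ^ 4 * (4 + (∑' y, (nar S a').wt q y * M (toR y) ^ 2) / vl S.G q) * vl S.G (fce S {s.b}) := by
  have l1 := hs.one_le hΛ
  have hN := ok_nar h ha.ne'
  have pΛ : 0 < Λ ^ 2 := by positivity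
  have a1 : a' ≤ a := (pow_le_pow_iff_left₀ h0.le ha.le two_ne_zero).1
    ((le_mul_of_one_le_right (sq_nonneg _) (le_add_of_nonneg_right (by positivity))).trans hθ)
  obtain ⟨N, k1, k2⟩ := upp_core (s := s) hN (cen_nar hc a) (ok_top (ok_dil hN _ l1)
    ⟨hs.top.pd, hs.top.ort, hs.top.ne, fun j => ⟨(hs.top.fm j).on, (hs.top.fm j).lin⟩⟩)
    hs.top.pd (hq.nar a) (ϑ := a' / a) hs.d1 (hs.d_le hΛ) (by positivity) (by
      have a2 : (s.d : ℝ) ^ 2 ≤ 1 / Λ ^ 2 * s.lam ^ 2 := by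
        rw [one_div_mul_eq_div, le_div_iff₀ pΛ, ← mul_pow]
        exact pow_le_pow_left₀ (by positivity) hs.lo 2
      rw [div_pow, div_mul_eq_mul_div, div_le_iff₀ (by positivity)]
      nlinarith [mul_le_mul_of_nonneg_left a2 (sq_nonneg a'),
        mul_le_mul_of_nonneg_right hθ (sq_nonneg s.lam)]) m0 m1 hM
    fun r hr => mass_three h hc hs hΛ hZ hm ha h1 ⟨hr.blk, hr.dep⟩
  have K1 : ∀ {t : ℝ} {n : ℕ}, 0 ≤ t → t ≤ a'⁻¹ → n ≤ Fintype.card ι → t ^ n ≤ K :=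
    fun t0 t1 hn => (pow_le_pow_left₀ t0 t1 _).trans ((pow_le_pow_right₀
      ((one_le_inv₀ h0).2 (a1.trans h1)) hn).trans hK)
  have i1 : 1 ≤ a⁻¹ := (one_le_inv₀ ha).2 h1
  have i2 : a⁻¹ ≤ a'⁻¹ := (inv_le_inv₀ ha h0).2 a1
  have K0 : 1 ≤ K := by simpa using K1 (n := 0) zero_le_one (i1.trans i2) (Nat.zero_le _)
  have ev : ∀ {κ : Type} [Fintype κ] [DecidableEq κ] (G : Matrix κ κ ℝ) (r : Finset κ),
      vl (a ^ 2 • G) r = a⁻¹ ^ r.card * vl G r := fun G r => by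
    rw [vl_smul (by positivity), Real.sqrt_sq ha.le]
  have p1 := vl_pos (hs.ok_rf hΛ h 0).pd (qr S s q)
  have p2 := vl_pos h.pd (fce S {s.b})
  have p3 := vl_pos h.pd q
  have k3 : ∀ o, S.wt (fce S {s.b}) o * ((∑' z, (nar (rf S s o) a).wt (qr S s q) z *
      M (mp S s o (toR z))) / vl (rf S s o).G (qr S s q)) ≤ (nar S a).wt (fce S {s.b}) o *
      (∑' z, (rf (nar S a) s o).wt (qr S s q) z * M (mp S s o (toR z))) /
        vl (rf S s 0).G (qr S s q) := fun o => by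
    have e : ∑' z, (nar (rf S s o) a).wt (qr S s q) z * M (mp S s o (toR z)) =
        ∑' z, (rf (nar S a) s o).wt (qr S s q) z * M (mp S s o (toR z)) :=
      tsum_congr fun z => congrArg (· * M (mp S s o (toR z)))
        (wt_nar_rf o a z)
    rw [mul_div_assoc, e, show (rf S s o).G = (rf S s 0).G from rfl]
    exact mul_le_mul_of_nonneg_right (wt_le_nar h (pow_le_one₀ ha.le h1) _ o) (div_nonneg
      (tsum_nonneg fun _ => mul_nonneg (MS.wt_nonneg _ _) (m0 _)) p1.le)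
  have k4 := k1.div_const (vl (rf S s 0).G (qr S s q))
  have s1 := k4.summable.of_nonneg_of_le (fun o => mul_nonneg (MS.wt_nonneg _ _) (div_nonneg
    (tsum_nonneg fun _ => mul_nonneg (MS.wt_nonneg _ _) (m0 _)) p1.le)) k3
  refine ⟨s1, (hasSum_le k3 s1.hasSum k4).trans ?_⟩
  have e1 : vl (rf (nar S a) s 0).G (qr (nar S a) s q) =
      a⁻¹ ^ (qr S s q).card * vl (rf S s 0).G (qr S s q) :=
    Eq.trans (b := vl (a ^ 2 • (rf S s 0).G) (qr S s q))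
      (by unfold vl; exact congrArg _ (blk_qr 0 a).symm) (ev _ _)
  rw [e1, nar_nar, mul_div_cancel₀ _ ha.ne', show vl (nar S a).G q = _ from ev S.G q,
    show vl (nar S a).G (fce (nar S a) {s.b}) = _ from ev S.G (fce S {s.b}), ← div_div,
    div_right_comm, div_le_iff₀ (by positivity)] at k2
  set T := ∑' y, (nar S a').wt q y * M (toR y) ^ 2
  have T0 : 0 ≤ T := tsum_nonneg fun _ => mul_nonneg (MS.wt_nonneg _ _) (sq_nonneg _)
  have b1 : (a' / a)⁻¹ ^ (q ∩ (nar S a).st s.b).card ≤ K := K1 (by positivity)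
    (by rw [inv_div, div_eq_mul_inv]; exact mul_le_of_le_one_left (by positivity) h1)
    (card_le_univ _)
  have b2 : T / (a⁻¹ ^ q.card * vl S.G q) ≤ K * (T / vl S.G q) :=
    (div_le_div_of_nonneg_left T0 p3 (le_mul_of_one_le_left p3.le (one_le_pow₀ i1))).trans
      (le_mul_of_one_le_left (by positivity) K0)
  have b3 : a⁻¹ ^ (fce S {s.b}).card ≤ K := K1 (by positivity) i2 (card_le_univ _)
  have b4 : a⁻¹ ^ (qr S s q).card ≤ K ^ 2 := by
    refine (pow_le_pow_right₀ i1 card_qr).trans ?_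
    rw [mul_comm, pow_mul]
    exact pow_le_pow_left₀ (by positivity) (K1 (by positivity) i2 (card_le_univ _)) 2
  refine k2.trans ((mul_le_mul (mul_le_mul (add_le_add (mul_le_mul_of_nonneg_left b1 (by norm_num))
    b2) (mul_le_mul_of_nonneg_right b3 p2.le) (by positivity) (by positivity)) b4 (by positivity)
    (by positivity)).trans (le_of_eq (by ring)))

/-- Markov form: the base points with a large refined sum are rare -/
theorem upp_bad (h : S.Ok) (hc : S.Cen) (hs : Good S s B Λ P R) (hΛ : 1 ≤ Λ) (hZ : 3 ≤ Z)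
    (hm : Mg (xt S s) Z) (hq : Cls S q) {a a' K : ℝ} (h0 : 0 < a') (ha : 0 < a) (h1 : a ≤ 1)
    (hθ : a' ^ 2 * (1 + 1 / Λ ^ 2) ≤ a ^ 2) (hK : a'⁻¹ ^ Fintype.card ι ≤ K)
    {M : (ι → ℝ) → ℝ} {C : ℝ} (m0 : ∀ y, 0 ≤ M y) (m1 : ∀ y, |M y| ≤ C) (hM : On q M)
    {A A' ε : ℝ} (hA : ∑' y, (nar S a').wt q y * M (toR y) ^ 2 ≤ A' * vl S.G q) (hA0 : 0 < A)
    (hε : K ^ 4 * (4 + A') ≤ ε * A) {Bad : (ι → ℤ) → Prop}
    (hB : ∀ o, Bad o → A * vl (rf S s o).G (qr S s q) ≤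
      ∑' z, (nar (rf S s o) a).wt (qr S s q) z * M (mp S s o (toR z))) :
    ∑' o, S.wt (fce S {s.b}) o * ind (Bad o) ≤ ε * vl S.G (fce S {s.b}) := by
  obtain ⟨s1, k1⟩ := upp h hc hs hΛ hZ hm hq h0 ha h1 hθ hK m0 m1 hM
  have p1 := fun o => vl_pos (hs.ok_rf hΛ h o).pd (qr S s q)
  have p2 := vl_pos h.pd (fce S {s.b})
  have k2 := ((h.summable_re (fce S {s.b}) fun o => P057T1.abs_ind (Bad o)).mul_left A).tsum_le_tsum
    (fun o => by
      rw [mul_left_comm]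
      refine mul_le_mul_of_nonneg_left ?_ (MS.wt_nonneg _ _)
      by_cases hb : Bad o
      · rw [P057T1.ind_pos hb, mul_one, le_div_iff₀ (p1 o)]
        exact hB o hb
      · rw [P057T1.ind_neg hb, mul_zero]
        exact div_nonneg (tsum_nonneg fun _ => mul_nonneg (MS.wt_nonneg _ _) (m0 _)) (p1 o).le) s1
  rw [tsum_mul_left] at k2
  refine le_of_mul_le_mul_left (k2.trans (k1.trans ?_)) hA0
  rw [← mul_assoc, mul_comm A]
  refine mul_le_mul_of_nonneg_right (le_trans (mul_le_mul_of_nonneg_left (add_le_add le_rfl ?_)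
    (by positivity)) hε) p2.le
  rwa [div_le_iff₀ (vl_pos h.pd q)]

theorem sup_rf (o : ι → ℤ) : univ.sup S.lv ≤ univ.sup (rf S s o).lv :=
  Finset.sup_le fun i _ => le_sup (f := (rf S s o).lv) (mem_univ (Sum.inl (Sum.inl i)))

/-- the descendants of the labels of low level are the labels of low level -/
theorem qr_low {F : Finset V} (hb : s.b ∈ F) {m : ℕ} (hm : m ≤ univ.sup S.lv + 1) (o : ι → ℤ) :
    qr S s (fce S F ∩ low S m) = fce (rf S s o) F ∩ low (rf S s o) m := by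
  ext ((i | x) | l)
  · rw [qr_old, mem_inter, mem_inter, mem_fce, mem_fce, mem_low, mem_low]; rfl
  · exact iff_of_false qr_new fun e => (mem_low.1 (mem_inter.1 e).2).not_ge hm
  · rw [qr_link, mem_inter, mem_inter, inr_mem hb, mem_lk, mem_low, mem_low]; rfl

theorem on_mp {M : (ι → ℝ) → ℝ} (hM : On q M) (o : ι → ℤ) :
    On (qr S s q) fun z => M (mp S s o z) := fun z z' e => hM _ _ fun i hi => by
  have e1 := e _ (qr_old.2 hi)
  rcases tri S s.b i with h | ⟨l, rfl⟩ | h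
  · rw [mp_in (h ▸ mem_singleton_self _), mp_in (h ▸ mem_singleton_self _), bv_pure h, bv_pure h, e1]
  · rw [mp_in l.2.1, mp_in l.2.1, bv_link, bv_link, e1, e _ (qr_link.2 hi)]
  · rw [mp_out h, mp_out h, e1]

end

end Vale.Agent.P057LU
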