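import Vale.Agent.P057LU.Dec
import Vale.Agent.P057IV.Plan

/-!
The system of centre and displacement is the mean of the refined systems.
-/

set_option linter.unusedSectionVars false

open Matrix Finset
open Vale.Agent.P267.H775 Vale.Agent.P057G Vale.Agent.P057MA Vale.Agent.P057IV
open Vale.Agent.P057T1 (ind cq ch pr a4 cq_out cq_w cq_st)
open Vale.Agent.P057PI (dup sg)

namespace Vale.Agent.P057LU

noncomputable section

variable {V : Type} [Fintype V] [DecidableEq V] {ι : Type} [Fintype ι] [DecidableEq ι]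
  {S : MS V ι} {F : Finset V} {b : V} {lam : ℝ}

theorem mem_b2 {v : V} {c : Fin 4} :
    (v, c) ∈ b2 F b ↔ (v ≠ b ∧ v ∈ F ∧ c = 0) ∨ (v = b ∧ (c = 0 ∨ c = 2)) := by
  simp only [b2, a4, mem_union, mem_image, mem_erase, mem_insert, mem_singleton, Prod.mk.injEq]
  constructor
  · rintro (⟨u, h1, rfl, h2⟩ | h | h)
    exacts [Or.inl ⟨h1.1, h1.2, h2.symm⟩, Or.inr ⟨h.1, Or.inl h.2⟩, Or.inr ⟨h.1, Or.inr h.2⟩]
  · rintro (h | ⟨h, h1 | h1⟩)
    exacts [Or.inl ⟨v, ⟨h.1, h.2.1⟩, rfl, h.2.2.symm⟩, Or.inr (Or.inl ⟨h, h1⟩),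
      Or.inr (Or.inr ⟨h, h1⟩)]

theorem mem_q2 {i : BI S.fc (0 : Fin 4)} : i ∈ fce (jt S b lam) (b2 F b) ↔
    ∀ v ∈ S.fc i.1.1, (v, i.1.2 v) ∈ b2 F b := by
  rw [mem_fce]
  exact image_subset_iff

theorem cq_q2 (hb : b ∈ F) {c : Fin 4} (hc : c = 0 ∨ c = 2) (j : ι) :
    cq S b c j ∈ fce (jt S b lam) (b2 F b) ↔ j ∈ fce S F := by
  rw [mem_q2, mem_fce]
  refine forall₂_congr fun v (hv : v ∈ S.fc j) => ?_
  rw [cp_snd _ hv, mem_b2]
  by_cases e : v = b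
  · subst e
    simp [ch, hb, hc]
  · simp [ch, e]

theorem q2_cases (hb : b ∈ F) {i : BI S.fc (0 : Fin 4)} (hi : i ∈ fce (jt S b lam) (b2 F b)) :
    ∃ c, (c = 0 ∨ c = 2) ∧ ∃ j ∈ fce S F, cq S b c j = i := by
  have h1 := mem_q2.1 hi
  have h2 : i.1.2 b = 0 ∨ i.1.2 b = 2 := by
    by_cases e : b ∈ S.fc i.1.1
    · simpa [mem_b2] using h1 b e
    · exact Or.inl (i.2 b e)
  have h3 : cq S b (i.1.2 b) i.1.1 = i := by
    refine Eq.trans (cp_congr fun v hv => ?_) (cp_self i)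
    by_cases e : v = b
    · subst e
      simp [ch]
    · have := h1 v hv
      simp only [mem_b2, e, false_and, or_false] at this
      rw [this.2.2, ch, Function.update_of_ne e]
  exact ⟨_, h2, i.1.1, (cq_q2 hb h2 _).1 (h3.symm ▸ hi), h3⟩

theorem q2_st (hb : b ∈ F) : fce (jt S b lam) (b2 F b) ∩ (jt S b lam).st (b, 0) =
    (fce S F ∩ S.st b).image (cq S b 0) := by
  ext i
  rw [mem_inter, mem_image]
  constructor
  · rintro ⟨h1, h2⟩
    obtain ⟨c, -, j, hj, rfl⟩ := q2_cases hb h1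
    obtain ⟨h3, rfl⟩ := (cq_st c 0 j).1 h2
    exact ⟨j, mem_inter.2 ⟨hj, h3⟩, rfl⟩
  · rintro ⟨j, hj, rfl⟩
    exact ⟨(cq_q2 hb (Or.inl rfl) j).2 (mem_inter.1 hj).1,
      (cq_st 0 0 j).2 ⟨(mem_inter.1 hj).2, rfl⟩⟩

theorem q2_out (hb : b ∈ F) : fce (jt S b lam) (b2 F b) \ (jt S b lam).st (b, 0) =
    (fce S F).image (cq S b 2) := by
  ext i
  rw [mem_sdiff, mem_image]
  constructor
  · rintro ⟨h1, h2⟩
    obtain ⟨c, rfl | rfl, j, hj, rfl⟩ := q2_cases hb h1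
    · exact ⟨j, hj, cq_out (fun e => h2 ((cq_st 0 0 j).2 ⟨e, rfl⟩)) _ _⟩
    · exact ⟨j, hj, rfl⟩
  · rintro ⟨j, hj, rfl⟩
    exact ⟨(cq_q2 hb (Or.inr rfl) j).2 hj, fun e => absurd ((cq_st 2 0 j).1 e).2 (by decide)⟩

theorem sg_cq (σ : Fin 4 → ℝ) (c : Fin 4) (j : ι) :
    sg S 0 b σ (cq S b c j) = σ c ^ (S.fc j ∩ {b}).card := by
  change (if b ∈ S.fc j then _ else _) = _
  split_ifs with h
  · rw [cq_w (S.mem_st.2 h), inter_singleton_of_mem h, card_singleton, pow_one]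
  · rw [inter_singleton_of_notMem h, card_empty, pow_zero]

theorem G_jt (h : S.Ok) (c : Fin 4) (i j : ι) : (jt S b lam).G (cq S b c i) (cq S b c j) =
    (dil S {b} ((![1, 1, √lam, √lam] : Fin 4 → ℝ) c)).G i j := by
  change sg S 0 b _ _ * (blow S 0).G _ _ * sg S 0 b _ _ = _
  rw [sg_cq, sg_cq, G_cp h]
  rfl

theorem ok_jt (h : S.Ok) (hl : 1 ≤ lam) : (jt S b lam).Ok :=
  (P057PI.sc_sg (S := S) (c0 := 0) univ b fun c => by
    have := Real.one_le_sqrt.2 hl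
    fin_cases c <;> simp [hl]).ok h

theorem ln2_jt (h : S.Ok) (hl : 1 ≤ lam) (hb : b ∈ F) (W : BI S.fc (0 : Fin 4) → ℝ) :
    ln2 (jt S b lam) (fce (jt S b lam) (b2 F b)) W = ln2 S (fce S F ∩ S.st b) (W ∘ cq S b 0) +
      ln2 (dil S {b} √lam) (fce S F) (W ∘ cq S b 2) := by
  rw [ln2_split (ok_jt h hl) ((ok_jt h hl).sat_st (b, 0)), q2_st hb, q2_out hb,
    ln2_image (S := S) (cp_inj _ _ _) (fun i _ j _ => (G_jt h 0 i j).trans (by
      change (dil S {b} 1).G i j = _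
      rw [dil_one])) fun z i _ => p_cp h _ z i,
    ln2_image (S := dil S {b} √lam) (cp_inj _ _ _) (fun i _ j _ => G_jt h 2 i j)
      fun z i _ => p_cp h _ z i]

theorem vl_jt (h : S.Ok) (hl : 1 ≤ lam) (hb : b ∈ F) :
    vl (jt S b lam).G (fce (jt S b lam) (b2 F b)) = vl S.G (fce S F ∩ S.st b) *
      vl (dil S {b} √lam).G (fce S F) := by
  rw [(ok_jt h hl).vl_st _ (b, 0), q2_st hb, q2_out hb,
    vl_image (G := S.G) (cp_inj _ _ _) fun i _ j _ => (G_jt h 0 i j).trans (by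
      change (dil S {b} 1).G i j = _
      rw [dil_one]),
    vl_image (G := (dil S {b} √lam).G) (cp_inj _ _ _) fun i _ j _ => G_jt h 2 i j]

theorem fce_nw (μ : ℝ) : fce (xt S (nw ι b μ)) F = (fce S F).image Sum.inl := by
  ext (i | i)
  · rw [mem_fce, Sum.inl_injective.mem_finset_image, mem_fce]; rfl
  · exact i.elim

/-- the displacement and the centre of a point of the joint system -/
def spl (S : MS V ι) (F : Finset V) (b : V) (μ : ℝ) (W : BI S.fc (0 : Fin 4) → ℤ) :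
    (ι ⊕ (nw ι b μ).X → ℤ) × (↥(fce S F ∩ S.st b) → ℤ) :=
  (Sum.elim (W ∘ cq S b 2) Empty.elim, fun j => W (cq S b 0 j))

theorem trm_spl (h : S.Ok) (hc : S.Cen) (hl : 1 ≤ lam) (hb : b ∈ F)
    (H : (ι → ℝ) → (ι → ℝ) → Prop) {W : BI S.fc (0 : Fin 4) → ℤ}
    (hW : ∀ i, i ∉ fce (jt S b lam) (b2 F b) → W i = 0) :
    (jt S b lam).wt (fce (jt S b lam) (b2 F b)) W *
      ind (H (toR W ∘ cq S b 0) (pr S b 0 2 (toR W))) =
      trm S (nw ι b √lam) F H (spl S F b √lam W) := by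
  have e1 : ∀ j ∈ S.st b, put (fce S F ∩ S.st b) (fun j => W (cq S b 0 j)) 0 j = W (cq S b 0 j) :=
    fun j hj => by
      by_cases e : j ∈ fce S F
      · exact put_pos _ _ (mem_inter.2 ⟨e, hj⟩)
      · rw [put_neg _ _ fun a => e (mem_inter.1 a).1,
          hW _ (mt (cq_q2 hb (Or.inl rfl) j).1 e)]; rfl
  have e2 : toR (mix (S.st b) (put (fce S F ∩ S.st b) (fun j => W (cq S b 0 j)) 0)
      (W ∘ cq S b 2)) = toR W ∘ cq S b 0 := by
    funext j
    by_cases hj : j ∈ S.st b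
    · rw [toR_apply, mix_pos _ _ hj, e1 j hj]; rfl
    · rw [toR_apply, mix_neg _ _ hj, Function.comp, cq_out hj 2 0]; rfl
  have e3 : toR (mix (S.st b) (put (fce S F ∩ S.st b) (fun j => W (cq S b 0 j)) 0 +
      1 • (W ∘ cq S b 2)) (W ∘ cq S b 2)) = pr S b 0 2 (toR W) := by
    funext j
    by_cases hj : j ∈ S.st b
    · rw [toR_apply, mix_pos _ _ hj, pr, mix_pos _ _ hj, Pi.add_apply, e1 j hj, one_smul]
      simp
    · rw [toR_apply, mix_neg _ _ hj, pr, mix_neg _ _ hj, Function.comp, cq_out hj 2 0]; rfl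
  have e4 : ∀ i, i ∉ fce (xt S (nw ι b √lam)) F → (spl S F b √lam W).1 i = 0 := by
    rintro (i | i) hi
    · rw [fce_nw, Sum.inl_injective.mem_finset_image] at hi
      exact hW _ (mt (cq_q2 hb (Or.inr rfl) i).1 hi)
    · exact i.elim
  change _ = _ * (gs (S.fg (fce S F) b (toR (W ∘ cq S b 2))) _ * ind (H (toR (mix (S.st b)
    (put (fce S F ∩ S.st b) (fun j => W (cq S b 0 j)) 0) (W ∘ cq S b 2)))
    (toR (mix (S.st b) (put (fce S F ∩ S.st b) (fun j => W (cq S b 0 j)) 0 +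
      1 • (W ∘ cq S b 2)) (W ∘ cq S b 2)))))
  rw [e2, e3, ← mul_assoc, wt_eq, wt_eq, if_pos hW, if_pos e4, ln2_jt h hl hb, fce_nw,
    ln2_image (S := dil S {b} √lam) Sum.inl_injective (fun _ _ _ _ => rfl) fun _ _ _ => rfl,
    P057T1.ln2_fg h hc (cls_fce S F) b (toR (W ∘ cq S b 2)) _ fun j hj => by
      rw [Function.comp, cq_out (mem_sdiff.1 hj).2 0 2]; rfl]
  unfold gs
  rw [← Real.exp_add]
  congr 2
  rw [mul_add, neg_add, add_comm]
  rfl

/-- the system of centre and displacement is the mean of the refined systems -/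
theorem unf (V : Type) [Fintype V] [DecidableEq V] : UNF V := by
  intro ι _ _ S F b lam H h hc hb hl
  have hx : (xt S (nw ι b √lam)).Ok :=
    (good_nw (P := √lam) (R := 0) hb (Real.one_le_sqrt.2 hl) le_rfl (Real.one_le_sqrt.2 hl)
      le_rfl).ok_xt le_rfl h
  obtain ⟨s1, h1⟩ := dec (s := nw ι b √lam) h hc hx hb H
  refine le_trans (mul_le_mul_of_nonneg_right ?_ (vl_pos h.pd _).le) h1
  have e1 : vl (xt S (nw ι b √lam)).G (fce (xt S (nw ι b √lam)) F) =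
      vl (dil S {b} √lam).G (fce S F) := by
    rw [fce_nw]
    exact vl_image Sum.inl_injective fun _ _ _ _ => rfl
  rw [den, vl_jt h hl hb, e1, mul_comm (vl S.G _)]
  refine div_le_div_of_nonneg_right ?_
    (mul_pos (vl_pos (ok_dil h _ (Real.one_le_sqrt.2 hl)).pd _) (vl_pos h.pd _)).le
  rw [← tsum_subtype_eq_of_support_subset
    (s := {W | ∀ i, i ∉ fce (jt S b lam) (b2 F b) → W i = 0}) fun W hW => by
      by_contra h0
      exact hW (mul_eq_zero_of_left (if_neg h0) _)]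
  have s2 := ((ok_jt (b := b) h hl).summable_re (fce (jt S b lam) (b2 F b))
    (f := fun W => ind (H (toR W ∘ cq S b 0) (pr S b 0 2 (toR W))))
    fun _ => P057T1.abs_ind _).subtype {W | ∀ i, i ∉ fce (jt S b lam) (b2 F b) → W i = 0}
  refine Summable.tsum_le_tsum_of_inj (fun W => spl S F b √lam W.1) (fun W W' e => ?_)
    (fun p _ => trm_nonneg H p) (fun W => (trm_spl h hc hl hb H W.2).le) s2 s1
  obtain ⟨e2, e3⟩ := Prod.ext_iff.1 e
  refine Subtype.ext (funext fun i => ?_)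
  by_cases hi : i ∈ fce (jt S b lam) (b2 F b)
  · by_cases h2 : i ∈ (jt S b lam).st (b, 0)
    · obtain ⟨j, hj, rfl⟩ := mem_image.1 ((q2_st hb).subset (mem_inter.2 ⟨hi, h2⟩))
      exact congrFun e3 ⟨j, hj⟩
    · obtain ⟨j, -, rfl⟩ := mem_image.1 ((q2_out hb).subset (mem_sdiff.2 ⟨hi, h2⟩))
      exact congrFun e2 (Sum.inl j)
  · rw [W.2 i hi, W'.2 i hi]

end

end Vale.Agent.P057LU
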