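import Vale.Agent.P057LU.Mom
import Vale.Agent.P057FC.Defs

/-!
The model of a chain together with a moment bound survives the steps.
-/

set_option linter.unusedSectionVars false

open Matrix Finset
open Vale.Agent.P267.H775 Vale.Agent.P057G Vale.Agent.P057PC Vale.Agent.P057TP Vale.Agent.P057MA
open Vale.Agent.P057SG Vale.Agent.P057FC
open Vale.Agent.P057SY (fo)
open Vale.Agent.P057IV (Sy Stp Good mp Lk Clos card_rf)

namespace Vale.Agent.P057LU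

noncomputable section

variable {T : Tow} {n p : ℕ} {R : Type} [Fintype R] [DecidableEq R]

theorem none_lfo {O : Type} {π : O → Uv n p R} (l : Lo T π) : none ∈ lfo l ↔ none ∈ l.fc := by
  unfold lfo
  rw [mem_biUnion]
  refine ⟨fun ⟨x, h1, h2⟩ => ?_, fun h => ⟨none, h, mem_singleton_self _⟩⟩
  rcases x with _ | x | x
  · exact h1
  · simp [lco] at h2
  · simp [lco] at h2

section md

variable {ι : Type} [Fintype ι] [DecidableEq ι] {M : Mdd T n p R ι}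
  {Z : Sys T (Uv n p R) Unit} {γ U : ℝ} {S : MS (Option (Fin n)) ι}
  {φ : (ι → ℝ) → Lb T (cU : Uv n p R → _) Unit (n + 2) → ℝ} {k : ℕ}

theorem mem_cw {j : ι} : j ∈ M.cw ↔ ∃ l, M.lab l = j ∧ none ∉ l.1.fc := by simp [Mdd.cw]

theorem mem_ex {j : ι} : j ∈ M.ex ↔ j ∉ Set.range M.lab := by
  unfold Mdd.ex
  rw [mem_filter, and_iff_right (mem_univ j)]

theorem cls_cw (h : Md M Z γ S φ k U) : Cls S M.cw := by
  have key : ∀ i ∈ M.cw, ∀ j, S.fc j ⊆ S.fc i → S.lv j ≤ S.lv i → j ∈ M.cw := by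
    intro i hi j h1 h2
    obtain ⟨l, rfl, hl⟩ := mem_cw.1 hi
    by_cases hj : j ∈ M.ex
    · exact absurd ((h.xl j hj).1 l) h2.not_gt
    · obtain ⟨l', rfl⟩ := not_not.1 (mt mem_ex.2 hj)
      rw [h.fc, h.fc] at h1
      exact mem_cw.2 ⟨l', rfl, fun e => hl ((none_lfo _).1 (h1 ((none_lfo _).2 e)))⟩
  exact ⟨fun i j e1 e2 hi => key i hi j e1.ge e2.ge, fun i hi j e => key i hi j e.1 e.2.le⟩

theorem rp_cw (h : Md M Z γ S φ k U) {z z' : ι → ℝ} (e : ∀ i ∈ M.cw, z i = z' i) :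
    rp (φ z) = rp (φ z') := by
  funext l
  unfold rp
  rw [h.map, h.map]
  refine congrArg round (sum_congr rfl fun a _ => ?_)
  split_ifs with ha
  · unfold glo
    split_ifs with hb
    · refine congrArg _ (e _ (mem_cw.2 ⟨⟨a, hb⟩, rfl, fun h1 => ?_⟩))
      have h2 := (Finset.ext_iff.1 ha.2.1 none).1
        ((@mem_image _ _ (_) _ _ _).2 ⟨none, h1, rfl⟩)
      have h3 : l.1.bs = none := l.2
      unfold fo at h2
      rw [if_pos h3] at h2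
      simp at h2
    · rfl
  · rfl

end md

variable (Z : Sys T (Uv n p R) Unit) (γ U c : ℝ) (k : ℕ) (D : Fz T n p R → ℤ)

/-- the dictionary: a model after at most `k - j` steps -/
def Dm (j : ℕ) (X : Sy (Option (Fin n))) (φ : (X.ι → ℝ) → Lv T n p R → ℝ) (q : Finset X.ι) :
    Prop :=
  j ≤ k ∧ X.S.Ok ∧ (Fintype.card X.ι : ℝ) + U ≤ 2 ^ (k - j) * c ∧
    ∃ (i : ℕ) (M : Mdd T n p R X.ι), i + j ≤ k ∧ Md M Z γ X.S (fun x => rmap D (φ x)) i U ∧
      q = M.cw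

/-- the oracle -/
def Gm (lam Λ t A : ℝ) (g : (Pg T n p R → ℤ) → ℝ) :
    ℕ → (X : Sy (Option (Fin n))) → ((X.ι → ℝ) → Lv T n p R → ℝ) → Prop :=
  Mom (rootS Z lam γ D) (Dm Z γ U c k D) (fun x => 1 + g (rp (rmap D x))) (sca Λ) (amo t A k)

variable {Z γ U c k D} {lam Λ t A : ℝ} {g : (Pg T n p R → ℤ) → ℝ}

theorem gm_clos (hS : MSTEP) {s₀ : ℕ} {N : ℝ} (hT : T.Ok s₀ N) (hZ : Z.Ok) {Y ε C : ℝ}
    (hΛ : 1 ≤ Λ) (hU : 0 ≤ U) (hY : 3 ≤ Y) (g0 : ∀ w, 0 ≤ g w) (gC : ∀ w, g w ≤ C)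
    (hc : k * 2 ^ k * c ≤ Λ ^ 2) (ht : 1 ≤ t) (hA : 4 ≤ A) (hε : 2 * Real.exp 4 ≤ ε * t) :
    Clos (BB n) Λ (Real.exp U) U Y ε (rootS Z lam γ D) (Gm Z γ U c k D lam Λ t A g) := by
  refine clos_mom (K := Real.exp 1) (C := 1 + C) (k := k) hΛ hY
    (fun _ => le_add_of_nonneg_right (g0 _)) (fun _ => add_le_add le_rfl (gC _)) (sca_pos Λ)
    (sca_le Λ) (sca_step Λ) (amo_pos ht (by linarith) k) (amo_anti ht (by linarith) k)
    (fun j hj => amo_step ht hA (by rwa [← Real.exp_nat_mul, mul_one]) hj) ?_ ?_ ?_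
  · rintro j X f q ⟨h1, h2, h3, i, M, h4, h5⟩
    have p : (0 : ℝ) ≤ 2 ^ (k - (j + 1)) * c := le_trans (by positivity) h3
    refine ⟨by omega, h2, h3.trans ?_, i, M, by omega, h5⟩
    rw [show k - j = k - (j + 1) + 1 by omega, pow_succ]
    linarith
  · rintro j X f q ⟨h1, h2, h3, i, M, h4, h5, rfl⟩
    refine ⟨h1, h2, cls_cw h5, fun z z' e => congrArg (1 + g ·) (rp_cw h5 e), ?_⟩
    rw [sca_pow, Real.exp_le_exp, div_le_one (by positivity)]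
    have c0 : 0 ≤ c := nonneg_of_mul_nonneg_right (le_trans (by positivity) h3) (by positivity)
    have a1 : (Fintype.card X.ι : ℝ) ≤ 2 ^ k * c := (le_add_of_nonneg_right hU).trans (h3.trans
      (mul_le_mul_of_nonneg_right (pow_le_pow_right₀ one_le_two (Nat.sub_le _ _)) c0))
    refine (mul_le_mul a1 (Nat.cast_le.2 h1) (by positivity) (by positivity)).trans ?_
    linarith
  · rintro j X f q s ⟨h1, h2, h3, i, M, h4, h5, rfl⟩ h hc hs o
    obtain ⟨M', k1, k2, k3, k4⟩ := hS s₀ N T n p R Z γ U Λ X.ι X.S _ i M s o hT hZ h hc hΛ hU hs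
      hs.sep h5
    refine ⟨by omega, hs.ok_rf hΛ h o, ?_, i + 1, M', by omega, k1, ?_⟩
    · have := card_rf hs
      rw [show k - j = k - (j + 1) + 1 by omega, pow_succ]
      change (Fintype.card ((X.ι ⊕ s.X) ⊕ Lk X.S s.b) : ℝ) + U ≤ _
      linarith
    · ext ((a | a) | a)
      exacts [qr_old.trans (k2 a).symm, iff_of_false qr_new (k3 a), qr_link.trans (k4 a).symm]

theorem gm_root (hR : MROOT) (h : (root Z lam γ D).Ok) (h1 : 1 ≤ lam) (h2 : lam ≤ Real.exp U)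
    (h3 : 1 ≤ γ) (h4 : γ ≤ Real.exp U) (hc : (Fintype.card (Lv T n p R) : ℝ) + U ≤ c)
    (hm : ∑' y, (nar (root Z lam γ D) (sca Λ k)).wt (fce (root Z lam γ D) (BB n)) y *
      (1 + g (rp (rmap D (toR y)))) ^ 2 ^ k ≤
      A * vl (root Z lam γ D).G (fce (root Z lam γ D) (BB n))) :
    Gm Z γ U c k D lam Λ t A g k (rootS Z lam γ D) id := by
  obtain ⟨M, k1, k2⟩ := hR T n p R Z lam γ U D h1 h2 h3 h4
  refine ⟨_, ⟨le_rfl, h, by rw [Nat.sub_self, pow_zero, one_mul]; exact hc, 0, M, by omega, k1, k2.symm⟩, ?_⟩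
  rw [amo, Nat.sub_self, pow_zero, one_mul]
  exact hm

theorem gm_out {C : ℝ} (g0 : ∀ w, 0 ≤ g w) (gC : ∀ w, g w ≤ C) {X : Sy (Option (Fin n))}
    {φ : (X.ι → ℝ) → Lv T n p R → ℝ} (h : Gm Z γ U c k D lam Λ t A g 0 X φ) :
    (Fintype.card X.ι : ℝ) + U ≤ 2 ^ k * c ∧ ∃ (i : ℕ) (M : Mdd T n p R X.ι), i ≤ k ∧
      Md M Z γ X.S (fun x => rmap D (φ x)) i U ∧
      ∑' x, X.S.wt M.cw x * g (rp (rmap D (φ (toR x)))) ≤ t ^ k * A * vl X.S.G M.cw := by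
  obtain ⟨q, ⟨-, h2, h3, i, M, h4, h5, rfl⟩, h6⟩ := h
  refine ⟨h3, i, M, h4, h5, le_trans ?_ h6⟩
  simp only [sca_zero, nar_one, pow_zero, pow_one]
  refine (h2.summable_re _ (C := C) fun z => ?_).tsum_le_tsum (fun z => mul_le_mul_of_nonneg_left
    (le_add_of_nonneg_left zero_le_one) (MS.wt_nonneg _ _)) (h2.summable_re _ (C := 1 + C) fun z => ?_)
  · rw [abs_of_nonneg (g0 _)]; exact gC _
  · rw [abs_of_nonneg (by linarith [g0 (rp (rmap D (φ (toR z))))])]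
    exact add_le_add le_rfl (gC _)

end

end Vale.Agent.P057LU
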