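import Vale.Agent.P057LU.CvB
import Vale.Agent.P057QP.Quad

/-!
The joint law of four copies; the dictionary.
-/

set_option linter.unusedSectionVars false

open Matrix Finset
open Vale.Agent.P267.H775 Vale.Agent.P057G Vale.Agent.P057MA Vale.Agent.P057PC
open Vale.Agent.P057TP Vale.Agent.P057GH Vale.Agent.P057SG Vale.Agent.P057DP
open Vale.Agent.P057RC (bs_none gz qF)
open Vale.Agent.P057RA (mem_lf gl2_pos gl2_neg gl2_congr)
open Vale.Agent.P057T1 (pr a4 ind)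
open Vale.Agent.P057IV (jt b4 den Nr rel)

namespace Vale.Agent.P057LU

noncomputable section

variable {T : Tow} {n p s : ℕ} {R : Type} {N : ℝ} [Fintype R] [DecidableEq R] {b : Fin n}
  {Z : Sys T (Uv n p R) Unit} {lam γ μ : ℝ} {D : Fz T n p R → ℤ}

/-- the live labels of the joint system -/
def l4 (T : Tow) (n p : ℕ) (R : Type) [Fintype R] [DecidableEq R] (b : Fin n) :
    Finset (L4 T n p R) := (b0 T cU (n + 2) (O4 n p R) Unit Empty (P4 b)).filter fun k => Liv (pj k)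

/-- the frozen labels, the live labels being zero -/
def g0 (D : Fz T n p R → ℤ) (k : L4 T n p R) : ℤ := gz 0 D (pj k)

theorem liv_be (a : BI (root Z lam γ D).fc (0 : Fin 4)) : Liv (pj (be a)) := by
  rw [be, pj_lx]; exact a.1.1.2

theorem mem_BB' {l : Lr T n p R} : (∀ c ∈ P057SG.lf l, c ≠ some b → c ∈ BB n) ↔ none ∉ l.fc :=
  ⟨fun h e => by simpa [BB] using h none (P057RA.none_lf.2 e), fun h _ hc _ => mem_BB.2 h hc⟩

theorem Fb4 (hμ : 0 ≤ μ) (f : (L4 T n p R → ℤ) → ℂ) :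
    Fb (tst cU (n + 2) Z (O4 n p R) (s4 b lam μ) 1) (l4 T n p R b) f (g0 D) =
      Ev (jt (root Z lam γ D) (some b) μ)
        (fce (jt (root Z lam γ D) (some b) μ) (b4 (BB n) (some b))) fun W => f (g4 W) := by
  have h1 : ∀ a ∈ fce (jt (root Z lam γ D) (some b) μ) (b4 (BB n) (some b)),
      a.1.2 none = 0 ∧ be a ∈ l4 T n p R b := fun a ha => by
    obtain ⟨x, y⟩ := mem_fb.1 ha
    exact ⟨y.none, mem_filter.2 ⟨mem_b0.2 ⟨mt star_lx.1 (mem_BB'.1 x), y.p4 _⟩, liv_be a⟩⟩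
  obtain ⟨e, he⟩ := eqv h1 fun k hk => by
    obtain ⟨x, y⟩ := mem_filter.1 hk
    exact ⟨y, mem_fb.2 ⟨mem_BB'.2 (mt star_pj.1 (mem_b0.1 x).1), ad_al y (mem_b0.1 x).2⟩⟩
  have k : ∀ z : ↥(l4 T n p R b) → ℤ,
      g4 (put _ (z ∘ e) 0) = put (l4 T n p R b) z (g0 D) := fun z => by
    funext l
    by_cases h : l ∈ l4 T n p R b
    · obtain ⟨a, ha⟩ := e.surjective ⟨l, h⟩
      rw [put_pos _ _ h, ← ha]
      refine Int.cast_injective (α := ℝ) ((congrFun (toR_g4 _) l).trans ?_)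
      rw [show l = be a.1 from (congrArg Subtype.val ha).symm.trans (he a), r4_be (h1 _ a.2).1,
        toR_apply, put_coe]
      rfl
    · rw [put_neg _ _ h]
      unfold g4 g0 gz
      split_ifs with y
      · exact put_neg _ _ fun c => h (be_al (Z := Z) (lam := lam) (γ := γ) (D := D) l y ▸ (h1 _ c).2)
      · rfl
  rw [Ev_eq_Ex]
  refine (Ex_equiv e (fun i j => ?_) (fun z i => ?_) fun z => by rw [k]).symm
  · change _ = (tst cU (n + 2) Z (O4 n p R) (s4 b lam μ) 1).G (e i).1 (e j).1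
    rw [he, he]
    have := (mem_b0.1 (mem_filter.1 (h1 _ i.2).2).1).1
    refine G_be (u := fun A _ => if Sum.inr () ∈ A then 1 else sc (s4 b lam μ) A) hμ
      (h1 _ i.2).1 (h1 _ j.2).1 ((if_neg this).trans (prod_congr rfl ?_))
    rintro (v | v) hv
    exacts [rfl, absurd hv this]
  · change _ = (pbo Z ((O4 n p R).j Unit) Empty).pr _ (n + 2) (toR (put _ z (g0 D))) (e i).1 + 0
    rw [he, ← k, toR_g4]
    exact (jn_r4 _).cen (mem_fb.1 i.2).2

theorem mem_qF4 {k : L4 T n p R} : k ∈ (qF T n p R).image (lx 0) ↔ ¬ Liv (pj k) := by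
  rw [mem_image]
  refine ⟨?_, fun h => ⟨_, P057RC.mem_qF.2 h, (lx_congr fun _ c => (h ⟨_, c⟩).elim).trans (lx_ix k)⟩⟩
  rintro ⟨l, hl, rfl⟩
  rw [pj_lx]
  exact P057RC.mem_qF.1 hl

theorem liv_mono {k k' : L4 T n p R} (h : k'.fc ⊆ k.fc) (a : Liv (pj k')) : Liv (pj k) :=
  a.mono (P057RA.lf_mono (image_subset_image h))

theorem lo_tst (hT : T.Ok s N) (hZ : Z.Ok) (hl : 0 < lam) (hμ : 0 < μ) :
    Lo (tst cU (n + 2) Z (O4 n p R) (s4 b lam μ) 1) := by
  refine lo_cub hT (ok_pbo hZ _ _) fun A _ => ?_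
  split_ifs
  · exact one_pos
  · refine prod_pos ?_
    rintro ((v | v) | v) -
    · change 0 < ite _ _ _
      split_ifs <;> positivity
    · exact one_pos
    · exact one_pos

theorem Ev4 (hT : T.Ok s N) (hZ : Z.Ok) (hl : 0 < lam) (hμ : 0 < μ) {f : (L4 T n p R → ℤ) → ℂ}
    {B : ℝ} (hf : ∀ z, ‖f z‖ ≤ B) : Ev (tst cU (n + 2) Z (O4 n p R) (s4 b lam μ) 1)
      (b0 T cU (n + 2) (O4 n p R) Unit Empty (P4 b)) f = ∑' D, (wD Z D : ℂ) *
      Fb (tst cU (n + 2) Z (O4 n p R) (s4 b lam μ) 1) (l4 T n p R b) f (g0 D) := by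
  have h := lo_tst (b := b) hT hZ hl hμ
  have fz : ∀ l : Lr T n p R, ¬ Liv l → none ∉ l.fc := fun l a c => a ⟨_, P057RA.none_lf.2 c⟩
  have e : b0 T cU (n + 2) (O4 n p R) Unit Empty (P4 b) =
      (qF T n p R).image (lx 0) ∪ l4 T n p R b := by
    ext k
    rw [mem_union, l4, mem_filter]
    refine ⟨fun a => by rw [mem_qF4]; tauto, fun a => a.elim (fun c => ?_) And.left⟩
    obtain ⟨l, hl, rfl⟩ := mem_image.1 c
    exact mem_b0.2 ⟨mt star_lx.1 (fz l (P057RC.mem_qF.1 hl)), Ad.p4 (fun _ _ => rfl) l⟩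
  rw [e, Ev_split (r := l4 T n p R b) h.toTr ((P057EN.cq_iff.2 fun l hl l' a _ => mem_qF4.2
    (mt (liv_mono a) (mem_qF4.1 hl))).cl h) (fun i j hi hj => by_contra fun c => hj ?_)
    (disjoint_left.2 fun k a c => mem_qF4.1 a (mem_filter.1 c).2) hf]
  · generalize Fb _ (l4 T n p R b) f = F
    have h1 := Ev_lift Z (hc_gx 0) P057RC.cc_jk (cc_ov _ Unit) gx_inj
      (by rintro (_ | a | a) <;> rfl) (a₁ := P057RC.sc 1 1)
      (a₂ := fun A _ => if Sum.inr () ∈ A then 1 else sc (s4 b lam μ) A) (q := qF T n p R)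
      (fun l hl => by
        rw [P057RC.sc_frz _ _ (P057RC.mem_qF.1 hl)]
        refine ite_eq_left_iff.2 fun _ => prod_eq_one fun v hv => ?_
        obtain ⟨x, hx, rfl⟩ := mem_image.1 hv
        obtain ⟨u, rfl⟩ := P057RC.frz_iff.1 (P057RC.mem_qF.1 hl) x hx
        rfl) fun u => F (g0 fun l => u l.1)
    have h2 := P057RC.Ev_qF (Z := Z) 1 1 fun u => F (g0 fun l => u l.1)
    simp only [P057RC.gz_frz] at h2
    refine (Ev_congr fun y hy => congrArg F (funext fun k => ?_)).trans (h1.trans h2)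
    unfold g0 gz
    split_ifs with a
    · exact hy k fun c => mem_qF4.1 c a
    · exact congrArg y ((lx_congr fun _ c => (a ⟨_, c⟩).elim).trans (lx_ix k)).symm
  · have a := (Gam_ne (right_ne_zero_of_mul c)).1
    obtain ⟨x, y⟩ := mem_filter.1 hi
    exact mem_filter.2 ⟨mem_b0.2 (a ▸ mem_b0.1 x), liv_mono a.subset y⟩

theorem toR_sub {C W₁ W₂ : Type} [Fintype W₂] {cl₁ : W₁ → C} {cl₂ : W₂ → C} {m : ℕ}
    (M : W₂ → W₁ → ℤ) (z : Lb T cl₂ Empty m → ℤ) (k : Lb T cl₁ Empty m) :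
    ((sub M z k : ℤ) : ℝ) = sub M (toR z) k := by
  simp only [P057DP.sub, Int.cast_sum, apply_ite (Int.cast : ℤ → ℝ), Int.cast_mul, Int.cast_id,
    Int.cast_zero, toR_apply]

theorem ev_g4 {U : (Fz T n p R → ℤ) → (Lv T n p R → ℝ) → Prop} {c c' : Fin 4} (hc : c ≠ c')
    {W : BI (root Z lam γ D).fc (0 : Fin 4) → ℤ} (h : ev U (sub (ex (M4 b c c')) (g4 W))) :
    U D (pr (root Z lam γ D) (some b) c c' (toR W)) := by
  have k := fun l => (toR_sub (ex (M4 b c c')) (g4 W) (rl l)).trans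
    (toR_g4 W ▸ (jn_r4 (toR W)).sub hc l)
  unfold ev at h
  rwa [show (fun l : Fz T n p R => sub (ex (M4 b c c')) (g4 W) (rl l.1)) = D from
      funext fun l => Int.cast_injective ((k l.1).trans (gl2_neg _ _ l.2)),
    funext fun l : Lv T n p R => (k l.1).trans (gl2_pos _ _ l.2)] at h

section nr

variable {r : Finset (BI (root Z lam γ D).fc (0 : Fin 4))}
  (hr : ∀ a, a ∈ r ↔ Ad b a.1.2 ∧ none ∈ a.1.1.1.fc) {X : L4 T n p R → ℝ}
  {w W : BI (root Z lam γ D).fc (0 : Fin 4) → ℝ}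

include hr in
theorem eq_st : ∃ e : r ≃ st T cU (n + 2) (O4 n p R) (P4 b), ∀ a, (e a).1 = be a.1 :=
  eqv (fun a ha => ⟨((hr a).1 ha).1.none,
    mem_st.2 ⟨star_lx.2 ((hr a).1 ha).2, ((hr a).1 ha).1.p4 _⟩⟩) fun _ hk =>
    ⟨⟨_, P057RA.none_lf.2 (star_pj.2 (mem_st.1 hk).1)⟩,
      (hr _).2 ⟨ad_al _ (mem_st.1 hk).2, star_pj.2 (mem_st.1 hk).1⟩⟩

theorem jn_mix (h : ∀ a, Ad b a.1.2 → none ∉ a.1.1.1.fc → w a = W a) :
    Jn b (mix (st T cU (n + 2) (O4 n p R) (P4 b)) (r4 w) (r4 W)) w := fun χ c => by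
  funext l
  rw [Function.comp_apply]
  by_cases y : none ∈ l.fc
  · have : lx χ l ∈ st T cU (n + 2) (O4 n p R) (P4 b) := mem_st.2 ⟨star_lx.2 y, c.p4 l⟩
    rw [mix_pos _ _ this]
    exact congrFun (r4_lx c.none w) l
  · have : lx χ l ∉ st T cU (n + 2) (O4 n p R) (P4 b) := fun a => y (star_lx.1 (mem_st.1 a).1)
    rw [mix_neg _ _ this]
    exact (congrFun (r4_lx c.none W) l).trans (gl2_congr D fun a =>
      (h _ (fun u d => ite_eq_right_iff.2 fun _ => c u d) y).symm)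

include hr in
theorem sum_st (k : L4 T n p R → ℤ) :
    ∑ i ∈ st T cU (n + 2) (O4 n p R) (P4 b), k i * r4 w i = ∑ a ∈ r, k (be a) * w a := by
  obtain ⟨e, he⟩ := eq_st hr
  rw [← sum_coe_sort, ← sum_coe_sort r, ← e.sum_comp]
  exact sum_congr rfl fun a _ => by rw [he, r4_be ((hr _).1 a.2).1.none]

include hr in
theorem ln2_jn (hT : T.Ok s N) (hl : 1 ≤ lam) (hg : 1 ≤ γ) (hμ : 1 ≤ μ) (j : Jn b X w) :
    ln2 (tst cU (n + 2) Z (O4 n p R) (fun _ => 1) γ) (st T cU (n + 2) (O4 n p R) (P4 b)) X ≤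
      ln2 (jt (root Z lam γ D) (some b) μ) r w := by
  obtain ⟨e, he⟩ := eq_st hr
  refine (qq_sG_mono hT.pd (a := fun A _ => if Sum.inr () ∈ A then γ else sc (fun _ => 1) A)
    (b := fun A _ => ∏ v ∈ A, t4 b lam γ μ v) (msk (st T cU (n + 2) (O4 n p R) (P4 b))
    (X - (tst cU (n + 2) Z (O4 n p R) (fun _ => 1) γ).p X)) fun l a => ?_).trans (le_of_eq ?_)
  · have c0 : l ∈ st T cU (n + 2) (O4 n p R) (P4 b) := by
      by_contra c
      exact a (msk_neg _ c)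
    have c := (mem_st.1 c0).1
    rw [if_pos c, ← mul_prod_erase _ _ c]
    refine le_mul_of_one_le_right (by linarith : 0 ≤ γ) (prod_induction _ (1 ≤ ·)
      (fun _ _ => one_le_mul_of_one_le_of_one_le) le_rfl ?_)
    rintro ((v | v) | v) -
    · change 1 ≤ ite _ _ _
      split_ifs
      exacts [one_le_mul_of_one_le_of_one_le hl hμ, hl]
    · exact le_rfl
    · exact hg
  · rw [ln2, qq_msk, qq_msk, ← qq_submatrix _ e]
    congr 1
    · ext a a'
      change sG T _ Empty (n + 2) (fun A _ => ∏ v ∈ A, t4 b lam γ μ v) (e a).1 (e a').1 = _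
      rw [he, he]
      exact (G_be (u := fun A _ => ∏ v ∈ A, t4 b lam γ μ v) (by linarith) ((hr _).1 a.2).1.none
        ((hr _).1 a'.2).1.none rfl).symm
    · funext a
      change X (e a).1 - ((pbo Z ((O4 n p R).j Unit) Empty).pr _ (n + 2) X (e a).1 + 0) = _
      rw [he, ← j.cen (μ := μ) ((hr _).1 a.2).1, j.be ((hr _).1 a.2).1]
      rfl

theorem nr_g4 (hT : T.Ok s N) (hl : 1 ≤ lam) (hg : 1 ≤ γ) (hμ : 1 ≤ μ) {K : ℝ} (hK : 0 ≤ K)
    {Θ : (Lb T (cU : Uv n p R → _) Unit (n + 2) → ℝ) → ℝ}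
    (h : NR cU (n + 2) Z (O4 n p R) γ (P4 b) (fun x => Θ (rm (sub (ex (M4 b 0 2)) x)) -
      Θ (rm (sub (ex (M4 b 0 3)) x)) - Θ (rm (sub (ex (M4 b 1 2)) x)) +
      Θ (rm (sub (ex (M4 b 1 3)) x))) K (r4 W)) :
    Nr (jt (root Z lam γ D) (some b) μ) (a4 {none}) (b4 (BB n) (some b))
      (rel (root Z lam γ D) (some b) fun _ x => Θ (rmap D x)) K W := by
  obtain ⟨k, hk⟩ := h
  unfold Nr P057T1.NF P057T1.Bal
  have hQ : ∀ a, a ∈ fce (jt (root Z lam γ D) (some b) μ) (a4 {none} ∪ b4 (BB n) (some b)) ↔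
      Ad b a.1.2 := fun a => by
    rw [P057IV.a4_b4, mem_fb, and_iff_right fun c _ _ => by cases c <;> simp [BB]]
  have hS : ∀ a, a ∈ (jt (root Z lam γ D) (some b) μ).sts (a4 {none}) ↔
      none ∈ a.1.1.1.fc ∧ a.1.2 none = 0 := fun a => by
    simp only [MS.mem_sts, P057IV.a4_one, mem_singleton, exists_eq_left]
    exact mem_fc_blow.trans (and_congr P057RA.none_lf Iff.rfl)
  generalize fce (jt (root Z lam γ D) (some b) μ) (a4 {none} ∪ b4 (BB n) (some b)) = Q at hQ ⊢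
  have hv : ∀ v ∈ a4 {none}, ∀ a ∈ Q ∩ (jt (root Z lam γ D) (some b) μ).sts (a4 {none}),
      a ∈ (jt (root Z lam γ D) (some b) μ).st v := fun v hv a ha => by
    obtain ⟨u, h1, h2⟩ := MS.mem_sts.1 (mem_inter.1 ha).2
    rw [P057IV.a4_one, mem_singleton] at hv h1
    rw [h1, ← hv] at h2
    exact (MS.mem_st _).2 h2
  have hr : ∀ a, a ∈ Q ∩ (jt (root Z lam γ D) (some b) μ).sts (a4 {none}) ↔
      Ad b a.1.2 ∧ none ∈ a.1.1.1.fc := fun a => by
    rw [mem_inter, hQ, hS]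
    exact and_congr_right fun c => and_iff_left c.none
  generalize Q ∩ (jt (root Z lam γ D) (some b) μ).sts (a4 {none}) = r at hv hr ⊢
  refine ⟨fun w => ∑ a ∈ r, k (be a) * w a, ⟨fun w w' y => sum_congr rfl fun a ha => by rw [y a ha],
    fun v c y => ?_⟩, IntV.sum _ fun a _ => (IntV.const _).mul (IntV.coord a), fun w hw => ?_⟩
  · have : ∀ x, ∑ a ∈ r, k (be a) * mix ((jt (root Z lam γ D) (some b) μ).st v) x y a =
        ∑ a ∈ r, k (be a) * x a := fun x => sum_congr rfl fun a ha => by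
      rw [mix_pos _ _ (hv v c a ha)]
    simp only [this]
    exact ⟨fun x x' => by simp only [Pi.add_apply, mul_add, sum_add_distrib],
      fun c x => by simp only [Pi.smul_apply, smul_eq_mul, mul_sum, mul_left_comm]⟩
  have j := jn_mix (w := w) (W := W) fun a c y =>
    hw.1 a (mem_sdiff.2 ⟨(hQ a).2 c, fun d => y ((hr a).1 d).2⟩)
  have h2 := hk (r4 w)
  beta_reduce at h2
  rw [rm_eq (j.sub (c := 0) (c' := 2) (by decide)), rm_eq (j.sub (c := 0) (c' := 3) (by decide)),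
    rm_eq (j.sub (c := 1) (c' := 2) (by decide)), rm_eq (j.sub (c := 1) (c' := 3) (by decide)),
    sum_st hr] at h2
  exact h2.trans (mul_le_of_le_one_right hK
    (Real.sqrt_le_one.2 ((ln2_jn hr hT hl hg hμ j).trans hw.2)))

end nr

theorem conv8 (hT : T.Ok s N) (hZ : Z.Ok) (hl : 1 ≤ lam) (hg : 1 ≤ γ) (hμ : 1 ≤ μ)
    {E : (L4 T n p R → ℤ) → Prop}
    {E' : ∀ D : Fz T n p R → ℤ, (BI (root Z lam γ D).fc (0 : Fin 4) → ℝ) → Prop}
    (h : ∀ D W, E (g4 W) → E' D (toR W)) : dn cU (n + 2) Z (O4 n p R) (s4 b lam μ) (P4 b) E ≤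
      ∑' D, wD Z D * den (jt (root Z lam γ D) (some b) μ) (b4 (BB n) (some b)) (E' D) := by
  have l0 : 0 < lam := by linarith
  have m0 : 0 < μ := by linarith
  have ok := fun D => P057QP.ok_jt (P057RA.ok_root (D := D) hT hZ l0 (by linarith : 0 < γ))
    (some b) hμ
  have k : ∀ (E : (L4 T n p R → ℤ) → Prop) (D : Fz T n p R → ℤ),
      Fb (tst cU (n + 2) Z (O4 n p R) (s4 b lam μ) 1) (l4 T n p R b) (fun z => (ind (E z) : ℝ))
        (g0 D) = den (jt (root Z lam γ D) (some b) μ) (b4 (BB n) (some b))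
          fun W => E (g4 fun a => round (W a)) := fun E D => by
    rw [Fb4 (γ := γ) m0.le, P057RC.den_eq]
    simp only [toR_apply, round_intCast]
  have hb : ∀ (P : Prop), ‖((ind P : ℝ) : ℂ)‖ ≤ 1 := fun P => by
    rw [Complex.norm_real]; exact P057T1.abs_ind _
  obtain ⟨B, hB⟩ := (lo_tst (b := b) hT hZ l0 m0).toTr.Fb_bdd (l4 T n p R b)
    (f := fun _ => (ind True : ℝ)) fun _ => hb _
  have sm : ∀ E' : ∀ D : Fz T n p R → ℤ, (BI (root Z lam γ D).fc (0 : Fin 4) → ℝ) → Prop,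
      Summable fun D => wD Z D * den (jt (root Z lam γ D) (some b) μ) (b4 (BB n) (some b)) (E' D) :=
    fun E' => summable_mul_real (P057RC.summable_wD hT hZ) (P057RC.wD_nonneg Z) (C := B) fun D => by
      have := hB (g0 D)
      rw [k (fun _ => True) D, Complex.norm_real] at this
      rw [abs_of_nonneg (P057IV.den_nonneg (ok D))]
      exact (P057IV.den_mono (ok D) fun _ _ => trivial).trans ((le_abs_self _).trans this)
  have h1 := (Ev_real _ _ _).symm.trans (Ev4 (b := b) hT hZ l0 m0 fun z => hb (E z))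
  simp only [k, ← Complex.ofReal_mul, ← Complex.ofReal_tsum] at h1
  refine (Complex.ofReal_injective h1).trans_le ((sm _).tsum_le_tsum (fun D =>
    mul_le_mul_of_nonneg_left (P057IV.den_mono (ok D) fun W a => h D W ?_)
      (P057RC.wD_nonneg Z D)) (sm _))
  simpa only [toR_apply, round_intCast] using a

theorem conv : CONV := fun _ _ _ _ _ _ _ _ _ hT hZ =>
  ⟨conv1, conv2, fun _ => conv3, fun _ _ _ => conv4, conv5, fun _ _ _ hl hg hU =>
    ⟨conv6 hU, (conv7 hT hZ (by linarith) (by linarith)).le, fun _ _ _ _ _ hμ hK =>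
      conv8 hT hZ hl hg hμ fun _ W h => ⟨ev_g4 (by decide) h.1, fun r =>
        nr_g4 hT hl hg hμ hK (toR_g4 W ▸ h.2 r)⟩⟩⟩

end

end Vale.Agent.P057LU
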