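import Vale.Agent.P057LU.Dec
import Vale.Agent.P057IV.Plan

/-!
The mean density of the pulled back set.
-/

set_option linter.unusedSectionVars false

open Matrix Finset
open Vale.Agent.P267.H775 Vale.Agent.P057G Vale.Agent.P057MA Vale.Agent.P057IV Vale.Agent.P057HU
open Vale.Agent.P057T1 (ind)

namespace Vale.Agent.P057LU

noncomputable section

/-- smoothing a set by a symmetric weight -/
theorem smooth_sym {P Q : Type} [Fintype P] [DecidableEq P] {A : Matrix P P ℝ} (hA : A.PosDef)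
    {m : Q → ℝ} (hm : Wt m) (n : Q ≃ Q) (hn : ∀ t, m (n t) = m t) (D : Q → P → ℤ)
    (hD : ∀ t, D (n t) = -D t) {f : (P → ℤ) → ℝ} (f0 : ∀ z, 0 ≤ f z) (f1 : ∀ z, |f z| ≤ 1) :
    (∑' x, gs A (toR x) * f x) * ∑' t, m t * gs A (toR (D t)) ≤
      ∑' t, m t * ∑' x, gs A (toR x) * f (x + D t) := by
  have wA := wt_gs0 hA
  have e : ∀ v : P → ℤ, ∑' x, gs A (toR x) * f (x + v) = ∑' z, gs A (toR z - toR v) * f z :=
    fun v => by
      rw [← (Equiv.addRight v).tsum_eq fun z => gs A (toR z - toR v) * f z]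
      refine tsum_congr fun t => ?_
      simp only [Equiv.coe_addRight, toR_add, add_sub_cancel_right]
  have s1 : Summable fun t => m t * ∑' x, gs A (toR x) * f (x + D t) :=
    hm.summ fun t => wA.abs_le fun x => f1 _
  have s2 : Summable fun t => m t * ∑' x, gs A (toR x) * f (x + -D t) :=
    hm.summ fun t => wA.abs_le fun x => f1 _
  have k : ∑' t, m t * ∑' x, gs A (toR x) * f (x + -D t) =
      ∑' t, m t * ∑' x, gs A (toR x) * f (x + D t) := by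
    rw [← n.tsum_eq fun t => m t * ∑' x, gs A (toR x) * f (x + D t)]
    simp only [hn, hD]
  have s3 : Summable fun t => m t * gs A (toR (D t)) := hm.summ (C := 1) fun t => by
    rw [abs_of_pos (gs_pos _ _)]; exact gs_le_one hA.posSemidef _
  have h2 := ((s3.mul_left (∑' x, gs A (toR x) * f x)).mul_left 2).tsum_le_tsum (fun t => by
    have a1 := (wt_gs hA (toR (D t))).summ f1
    have a2 := (wt_gs hA (toR (-D t))).summ f1
    have h3 : 2 * ((∑' x, gs A (toR x) * f x) * gs A (toR (D t))) ≤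
        ∑' z, (gs A (toR z - toR (D t)) * f z + gs A (toR z - toR (-D t)) * f z) := by
      rw [← tsum_mul_right, ← tsum_mul_left]
      refine Summable.tsum_le_tsum (fun z => ?_) (((wA.summ f1).mul_right _).mul_left _)
        (a1.add a2)
      have := mul_le_mul_of_nonneg_right (gs_cosh hA.1 (toR z) (toR (D t))) (f0 z)
      rw [toR_neg, sub_neg_eq_add]
      linarith
    rw [a1.tsum_add a2, ← e, ← e] at h3
    have := mul_le_mul_of_nonneg_left h3 (hm.1 t)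
    linarith) (s1.add s2)
  rw [s1.tsum_add s2, k, tsum_mul_left, tsum_mul_left] at h2
  linarith

theorem num_half {lam d Λ : ℝ} {n : ℕ} (hΛ : 1 ≤ Λ) (hn : (n : ℝ) ≤ Λ) (hd : 0 ≤ d)
    (hl : d * Λ ≤ lam) (h0 : 0 < lam) :
    (√(lam ^ 2))⁻¹ ^ n / 2 ≤ (√(√(lam ^ 2 + d ^ 2) ^ 2))⁻¹ ^ n := by
  have p : 0 < lam ^ 2 + d ^ 2 := by positivity
  have pΛ : 0 < Λ := by linarith
  rw [Real.sqrt_sq h0.le, Real.sq_sqrt p.le, inv_pow, inv_pow, div_eq_mul_inv, ← mul_inv,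
    inv_le_inv₀ (by positivity) (by positivity)]
  refine (pow_le_pow_iff_left₀ (by positivity) (by positivity) two_ne_zero).1 ?_
  have h1 : lam ^ 2 + d ^ 2 ≤ lam ^ 2 * Real.exp (1 / Λ) := by
    have h2 : d ^ 2 * Λ ≤ lam ^ 2 := by
      have := pow_le_pow_left₀ (by positivity) hl 2
      nlinarith [mul_nonneg (sq_nonneg d) (mul_nonneg pΛ.le (sub_nonneg.2 hΛ))]
    have h3 : d ^ 2 ≤ lam ^ 2 * (1 / Λ) := by rwa [mul_one_div, le_div_iff₀ pΛ]
    nlinarith [mul_le_mul_of_nonneg_left (Real.add_one_le_exp (1 / Λ)) (sq_nonneg lam)]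
  have h4 : Real.exp (1 / Λ) ^ n ≤ 2 ^ 2 := by
    rw [← Real.exp_nat_mul]
    refine (Real.exp_le_exp.2 (?_ : _ ≤ (1 : ℝ))).trans (by linarith [Real.exp_one_lt_three])
    rwa [mul_one_div, div_le_one pΛ]
  rw [← pow_mul, mul_comm n, pow_mul, Real.sq_sqrt p.le, mul_pow, ← pow_mul, mul_comm n, pow_mul]
  refine (pow_le_pow_left₀ p.le h1 n).trans ?_
  rw [mul_pow]
  exact mul_le_mul_of_nonneg_left h4 (by positivity)

variable {V : Type} [Fintype V] [DecidableEq V] {ι : Type} [Fintype ι] [DecidableEq ι]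
  {S : MS V ι} {s : Stp V ι} {B F : Finset V} {Λ P R : ℝ}

/-- the extension with another narrowing -/
abbrev tp (S : MS V ι) (s : Stp V ι) (μ : ℝ) : MS V (ι ⊕ s.X) :=
  top (dil S {s.b} μ) s.fc s.G s.p

theorem top_any (hs : Good S s B Λ P R) (μ : ℝ) : TopOk (dil S {s.b} μ) s.fc s.G s.p :=
  ⟨hs.top.pd, hs.top.ort, hs.top.ne, fun j => ⟨(hs.top.fm j).on, (hs.top.fm j).lin⟩⟩

theorem inl_st (μ : ℝ) (i : ι) : Sum.inl i ∈ fce (tp S s μ) F ∩ (tp S s μ).st s.b ↔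
    i ∈ fce S F ∩ S.st s.b := by
  rw [mem_inter, mem_inter, mem_fce, mem_fce, MS.mem_st, MS.mem_st]; rfl

theorem inl_xt (i : ι) : Sum.inl i ∈ fce (xt S s) F ∩ (xt S s).st s.b ↔
    i ∈ fce S F ∩ S.st s.b := inl_st s.lam i

theorem inr_st (hs : Good S s B Λ P R) (hF : B ⊆ F) (μ : ℝ) (x : s.X) :
    Sum.inr x ∈ fce (tp S s μ) F ∩ (tp S s μ).st s.b ↔ x ∈ univ :=
  iff_of_true (mem_inter.2 ⟨mem_fce.2 ((hs.fB x).trans hF), (MS.mem_st _).2 (hs.fb x)⟩)
    (mem_univ x)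

theorem tp_out (hs : Good S s B Λ P R) (μ : ℝ) : fce (tp S s μ) F \ (tp S s μ).st s.b =
    (fce S F \ S.st s.b).image Sum.inl := by
  ext (i | x)
  · rw [Sum.inl_injective.mem_finset_image, mem_sdiff, mem_sdiff, mem_fce, mem_fce, MS.mem_st,
      MS.mem_st]; rfl
  · exact iff_of_false (fun e => (mem_sdiff.1 e).2 ((MS.mem_st _).2 (hs.fb x))) (by simp)

theorem pow_st (μ : ℝ) : ∀ i ∈ fce S F ∩ S.st s.b, μ ^ (S.fc i ∩ {s.b}).card = μ := fun i hi => by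
  rw [inter_singleton_of_mem (S.mem_st.1 (mem_inter.1 hi).2), card_singleton, pow_one]

theorem G_out (μ : ℝ) : ∀ i ∈ fce S F \ S.st s.b, ∀ j ∈ fce S F \ S.st s.b,
    (tp S s μ).G (Sum.inl i) (Sum.inl j) = S.G i j := fun i hi j hj => by
  change μ ^ (S.fc i ∩ {s.b}).card * S.G i j * μ ^ (S.fc j ∩ {s.b}).card = _
  rw [inter_singleton_of_notMem fun e => (mem_sdiff.1 hi).2 (S.mem_st.2 e),
    inter_singleton_of_notMem fun e => (mem_sdiff.1 hj).2 (S.mem_st.2 e)]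
  simp

theorem vl_tp (h : S.Ok) (hs : Good S s B Λ P R) (hF : B ⊆ F) {μ : ℝ} (hμ : 1 ≤ μ) :
    vl (tp S s μ).G (fce (tp S s μ) F ∩ (tp S s μ).st s.b) =
      (√(μ ^ 2))⁻¹ ^ (fce S F ∩ S.st s.b).card * vl S.G (fce S F ∩ S.st s.b) * vl s.G univ :=
  (vl_blocks (ok_dil h _ hμ).pd hs.top.pd (inl_st μ) (inr_st hs hF μ)).trans
    (congrArg (· * _) (P057T1.vl_gsc _ (by linarith) (pow_st μ)))

theorem qq_tp (h : S.Ok) (hc : S.Cen) (hs : Good S s B Λ P R) (hF : B ⊆ F) {μ : ℝ} (hμ : 1 ≤ μ)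
    {u y : ι ⊕ s.X → ℝ} (e : ∀ i ∈ fce S F \ S.st s.b, u (Sum.inl i) = y (Sum.inl i)) :
    qq ((tp S s μ).fg (fce (tp S s μ) F) s.b y) (fun i => u i) =
      μ ^ 2 * qq (S.fg (fce S F) s.b (y ∘ Sum.inl)) (fun i => u (Sum.inl i)) +
        qq s.G (msk univ (u ∘ Sum.inr - s.p (u ∘ Sum.inl))) := by
  have h1 := ok_dil h {s.b} hμ
  rw [← P057T1.ln2_fg (ok_top h1 (top_any hs μ)) (cen_top h1 (cen_dil hc _ _) (top_any hs μ))
    (cls_fce _ F) s.b y u fun j hj => by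
      obtain ⟨i, hi, rfl⟩ := mem_image.1 ((tp_out hs μ).subset hj)
      exact e i hi]
  refine (qq_blocks _ _ (inl_st μ) (inr_st hs hF μ) _).trans (congrArg (· + _) ?_)
  exact (P057T1.ln2_gsc (pow_st μ) (u ∘ Sum.inl)).trans (congrArg (_ * ·)
    (P057T1.ln2_fg h hc (cls_fce S F) s.b (y ∘ Sum.inl) (u ∘ Sum.inl) e))

theorem gs_tp (h : S.Ok) (hc : S.Cen) (hs : Good S s B Λ P R) (hF : B ⊆ F) (hl : 1 ≤ s.lam)
    {μ : ℝ} (hμ : 1 ≤ μ) (e : μ ^ 2 = s.lam ^ 2 + (s.d : ℝ) ^ 2) (y : ι ⊕ s.X → ℤ)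
    (t : ↥(fce (xt S s) F ∩ (xt S s).st s.b) → ℤ) :
    gs ((xt S s).fg (fce (xt S s) F) s.b (toR y)) (toR t) *
      gs (S.fg (fce S F) s.b (toR (y ∘ Sum.inl)))
        (toR fun i => s.d * t ⟨Sum.inl i.1, (inl_xt i.1).2 i.2⟩) =
    gs ((tp S s μ).fg (fce (xt S s) F) s.b (toR y)) (toR t) := by
  have e2 : ∀ i ∈ fce S F \ S.st s.b, put _ (toR t) (toR y) (Sum.inl i) = toR y (Sum.inl i) :=
    fun i hi => put_neg _ _ fun a => (mem_sdiff.1 hi).2 (mem_inter.1 ((inl_xt i).1 a)).2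
  have e3 : (fun i : ↥(fce (xt S s) F ∩ (xt S s).st s.b) => put _ (toR t) (toR y) i.1) =
      toR t := funext fun i => put_coe _ _ i
  have e4 : (toR fun i : ↥(fce S F ∩ S.st s.b) =>
      s.d * t ⟨Sum.inl i.1, (inl_xt i.1).2 i.2⟩) =
      (s.d : ℝ) • fun i : ↥(fce S F ∩ S.st s.b) => put _ (toR t) (toR y) (Sum.inl i.1) := by
    funext i
    rw [Pi.smul_apply, put_pos _ _ ((inl_xt i.1).2 i.2)]
    simp
  have k1 : qq ((xt S s).fg (fce (xt S s) F) s.b (toR y)) (toR t) = _ :=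
    (congrArg (qq _) e3).symm.trans (qq_tp h hc hs hF hl e2)
  have k2 : qq ((tp S s μ).fg (fce (xt S s) F) s.b (toR y)) (toR t) = _ :=
    (congrArg (qq _) e3).symm.trans (qq_tp h hc hs hF hμ e2)
  refine (Real.exp_add _ _).symm.trans (congrArg Real.exp ?_)
  rw [e4, qq_smul, show toR (y ∘ Sum.inl) = toR y ∘ Sum.inl from rfl, k1]
  refine Eq.trans ?_ (congrArg (fun a => -(Real.pi * a)) k2.symm)
  rw [e]
  ring

/-- the inequality on one fibre -/
theorem loc_fib (h : S.Ok) (hc : S.Cen) (hs : Good S s B Λ P R) (hΛ : 1 ≤ Λ)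
    (hn : (Fintype.card ι : ℝ) ≤ Λ) (hF : B ⊆ F) (y : ι ⊕ s.X → ℤ)
    {f : (↥(fce S F ∩ S.st s.b) → ℤ) → ℝ} (f0 : ∀ z, 0 ≤ f z) (f1 : ∀ z, |f z| ≤ 1) :
    (∑' x, gs (S.fg (fce S F) s.b (toR (y ∘ Sum.inl))) (toR x) * f x) *
      (vl (xt S s).G (fce (xt S s) F ∩ (xt S s).st s.b) / 2) ≤
    ∑' t : ↥(fce (xt S s) F ∩ (xt S s).st s.b) → ℤ,
      gs ((xt S s).fg (fce (xt S s) F) s.b (toR y)) (toR t) *
        ∑' x, gs (S.fg (fce S F) s.b (toR (y ∘ Sum.inl))) (toR x) *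
          f (x + fun i => s.d * t ⟨Sum.inl i.1, (inl_xt i.1).2 i.2⟩) := by
  have hl := hs.one_le hΛ
  have hμ : 1 ≤ √(s.lam ^ 2 + (s.d : ℝ) ^ 2) := Real.one_le_sqrt.2 (by nlinarith)
  have hT := ok_top (ok_dil h {s.b} hμ) (top_any hs _)
  refine le_trans (mul_le_mul_of_nonneg_left ?_
    (tsum_nonneg fun _ => mul_nonneg (gs_pos _ _).le (f0 _)))
    (smooth_sym (h.fg_pos _ _ _) (wt_gs0 ((hs.ok_xt hΛ h).fg_pos _ _ _)) (Equiv.neg _)
      (fun t => by rw [Equiv.neg_apply, toR_neg, gs_neg]) _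
      (fun t => funext fun i => mul_neg _ _) f0 f1)
  simp only [gs_tp h hc hs hF hl hμ (Real.sq_sqrt (by positivity)) y]
  refine le_trans ?_ ((vol_le_th_zero (hT.fg_pos (fce (xt S s) F) s.b (toR y))).trans
    (tsum_gs0 _).ge)
  rw [hT.vol_fg]
  refine (congrArg (· / 2) (vl_tp h hs hF hl)).trans_le (le_of_le_of_eq ?_ (vl_tp h hs hF hμ).symm)
  have := num_half (n := (fce S F ∩ S.st s.b).card) hΛ
    (le_trans (by exact_mod_cast card_le_univ _) hn) (Nat.cast_nonneg s.d) hs.lo (by linarith)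
  have p := mul_pos (vl_pos h.pd (fce S F ∩ S.st s.b)) (vl_pos hs.top.pd univ)
  nlinarith

/-- the mean density of the pulled back set -/
theorem loc (V : Type) [Fintype V] [DecidableEq V] : LOC V := by
  intro ι _ _ S s B F Λ P R E h hc hs hΛ hn hF hE
  have hx := hs.ok_xt hΛ h
  obtain ⟨s1, h1⟩ := dec h hc hx (hF hs.mem) fun _ y => E y
  refine le_trans (mul_le_mul_of_nonneg_right ?_ (vl_pos h.pd _).le) h1
  let Φ : (ι ⊕ s.X → ℤ) → ℝ := fun u => ∑' x : ↥(fce S F ∩ S.st s.b) → ℤ,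
    gs (S.fg (fce S F) s.b (toR (u ∘ Sum.inl))) (toR x) *
      ind (E (toR (mix (S.st s.b) (put _ x 0 + s.d • (u ∘ Sum.inl)) (u ∘ Sum.inl))))
  let Ψ : (ι → ℤ) → ℝ := fun y => ∑' x : ↥(fce S F ∩ S.st s.b) → ℤ,
    gs (S.fg (fce S F) s.b (toR y)) (toR x) * ind (E (toR (put _ x y)))
  have e0 : ∀ u, ∑' x, trm S s F (fun _ y => E y) (u, x) =
      (xt S s).wt (fce (xt S s) F) u * Φ u := fun u => by
    simp only [trm, Φ, tsum_mul_left]
  have s2 : Summable fun u => (xt S s).wt (fce (xt S s) F) u * Φ u := by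
    simpa only [e0] using s1.prod
  have k1 := hx.hasSum_fibre _ s.b s2
  have k2 := h.hasSum_fibre (fce S F) s.b (F := fun z => ind (E (toR z)))
    (h.summable_re _ fun _ => P057T1.abs_ind _)
  simp only [(hs.cen_xt hΛ h hc).fcn, hc.fcn, sub_zero] at k1 k2
  set v := vl (xt S s).G (fce (xt S s) F ∩ (xt S s).st s.b) with hv
  have pv : 0 < v := vl_pos hx.pd _
  have k3 : ∀ y : ι ⊕ s.X → ℤ, (xt S s).wt (fce (xt S s) F \ (xt S s).st s.b) y *
      Ψ (y ∘ Sum.inl) * (v / 2) ≤ (xt S s).wt (fce (xt S s) F \ (xt S s).st s.b) y *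
      ∑' t, gs ((xt S s).fg (fce (xt S s) F) s.b (toR y)) (toR t) * Φ (put _ t y) := fun y => by
    rw [mul_assoc]
    refine mul_le_mul_of_nonneg_left ((loc_fib h hc hs hΛ hn hF y (fun _ => P057T1.ind_nonneg _)
      fun _ => P057T1.abs_ind _).trans (le_of_eq (tsum_congr fun t => ?_))) (MS.wt_nonneg _ _)
    have e1 : ∀ j ∉ S.st s.b, put _ t y (Sum.inl j) = y (Sum.inl j) := fun j hj =>
      put_neg _ _ fun a => hj (mem_inter.1 ((inl_xt j).1 a)).2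
    refine congrArg _ (tsum_congr fun x => ?_)
    rw [fg_congr (fce S F) s.b (y := toR (put _ t y ∘ Sum.inl)) (y' := toR (y ∘ Sum.inl))
      fun j hj => congrArg Int.cast (e1 j hj)]
    have e2 : ∀ i ∈ fce S F, toR (put _ (x + fun i : ↥(fce S F ∩ S.st s.b) =>
        s.d * t ⟨Sum.inl i.1, (inl_xt i.1).2 i.2⟩) (y ∘ Sum.inl)) i =
        toR (mix (S.st s.b) (put _ x 0 + s.d • (put _ t y ∘ Sum.inl)) (put _ t y ∘ Sum.inl)) i := by
      intro i hi
      refine congrArg Int.cast ?_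
      by_cases hb : i ∈ S.st s.b
      · have a := mem_inter.2 ⟨hi, hb⟩
        rw [put_pos _ _ a, mix_pos _ _ hb, Pi.add_apply, Pi.add_apply, put_pos _ _ a,
          Pi.smul_apply, Function.comp_apply, put_pos _ _ ((inl_xt i).2 a), nsmul_eq_mul]
      · rw [put_neg _ _ fun a => hb (mem_inter.1 a).2, mix_neg _ _ hb]
        exact (e1 i hb).symm
    rw [propext ⟨hE _ _ e2, hE _ _ fun i hi => (e2 i hi).symm⟩]
  have k4 := (k1.summable.of_nonneg_of_le (fun y => mul_nonneg (mul_nonneg (MS.wt_nonneg _ _)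
    (tsum_nonneg fun _ => mul_nonneg (gs_pos _ _).le (P057T1.ind_nonneg _))) (by positivity))
    k3).tsum_le_tsum k3 k1.summable
  have k5 : ∑' y : ι ⊕ s.X → ℤ, (xt S s).wt (fce (xt S s) F \ (xt S s).st s.b) y *
      Ψ (y ∘ Sum.inl) = ∑' y, S.wt (fce S F \ S.st s.b) y * Ψ y := by
    rw [show fce (xt S s) F \ (xt S s).st s.b = _ from tp_out hs s.lam]
    exact tsum_wt_image (S := S) (S' := xt S s) Sum.inl_injective (G_out s.lam)
      (fun _ _ _ => rfl) Ψ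
  have k6 : vl (xt S s).G (fce (xt S s) F \ (xt S s).st s.b) = vl S.G (fce S F \ S.st s.b) := by
    rw [show fce (xt S s) F \ (xt S s).st s.b = _ from tp_out hs s.lam]
    exact vl_image Sum.inl_injective (G_out s.lam)
  rw [tsum_mul_right, k5, k1.tsum_eq, k2.tsum_eq] at k4
  have p1 := vl_pos h.pd (fce S F ∩ S.st s.b)
  have p2 := vl_pos h.pd (fce S F \ S.st s.b)
  rw [s1.tsum_prod, den, h.vl_st (fce S F) s.b, hx.vl_st _ s.b, k6, ← hv]
  simp only [e0]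
  refine le_trans (le_of_eq ?_) (div_le_div_of_nonneg_right k4 (by positivity))
  field_simp

end

end Vale.Agent.P057LU
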