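import Vale.Agent.P057LU.Fib
import Vale.Agent.P057PK.Smo

/-!
The refined system on the descendants of a closed set of labels.
-/

set_option linter.unusedSectionVars false

open Matrix Finset
open Vale.Agent.P267.H775 Vale.Agent.P057G Vale.Agent.P057MA Vale.Agent.P057IV Vale.Agent.P057HU
open Vale.Agent.P057T1 (gsc)
open Vale.Agent.P057PI (dup sg qC)

namespace Vale.Agent.P057LU

noncomputable section

variable {V : Type} [Fintype V] [DecidableEq V] {ι : Type} [Fintype ι] [DecidableEq ι]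

/-- the links in `q` -/
def lq (S : MS V ι) (b : V) (q : Finset ι) : Finset (Lk S b) := univ.filter fun l => l.1 ∈ q

/-- the descendants of the labels `q` in the refined system -/
def qr (S : MS V ι) (s : Stp V ι) (q : Finset ι) : Finset ((ι ⊕ s.X) ⊕ Lk S s.b) :=
  (q.disjSum ∅).disjSum (lq S s.b q)

/-- the labels `q` together with all labels on the face `{b}` -/
def qp (S : MS V ι) (b : V) (q : Finset ι) : Finset ι := q ∪ fce S {b}

variable {S : MS V ι} {s : Stp V ι} {q : Finset ι} {b : V}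

theorem mem_lq {l : Lk S b} : l ∈ lq S b q ↔ l.1 ∈ q := by simp [lq]

theorem qr_old {i : ι} : Sum.inl (Sum.inl i) ∈ qr S s q ↔ i ∈ q := by simp [qr]

theorem qr_new {x : s.X} : Sum.inl (Sum.inr x) ∉ qr S s q := by simp [qr]

theorem qr_link {l : Lk S s.b} : Sum.inr l ∈ qr S s q ↔ l.1 ∈ q := by simp [qr, lq]

theorem card_qr : (qr S s q).card ≤ 2 * q.card := by
  have : (lq S s.b q).card ≤ q.card :=
    card_le_card_of_injOn Subtype.val (fun _ h => mem_lq.1 h) Subtype.val_injective.injOn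
  rw [qr, card_disjSum, card_disjSum, card_empty]
  omega

theorem cls_qp (hq : Cls S q) (b : V) : Cls S (qp S b q) :=
  ⟨fun i j e1 e2 hi => mem_union.2 ((mem_union.1 hi).imp (hq.blk i j e1 e2)
      ((cls_fce S _).blk i j e1 e2)),
    fun i hi j e => mem_union.2 ((mem_union.1 hi).imp (fun a => hq.dep i a j e)
      fun a => (cls_fce S _).dep i a j e)⟩

theorem qp_pure (hc : S.Cen) : qp S b q ∩ S.st b ∩ fce S {b} = fce S {b} :=
  inter_eq_right.2 fun _ hi => mem_inter.2 ⟨mem_union_right _ hi,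
    S.mem_st.2 ((mem_pure hc).1 hi ▸ mem_singleton_self _)⟩

theorem qp_link (hc : S.Cen) :
    (qp S b q ∩ S.st b) \ fce S {b} = (lq S b q).image Subtype.val := by
  ext i
  rw [mem_sdiff, mem_inter, qp, mem_union, mem_pure hc, MS.mem_st, mem_image]
  exact ⟨fun e => ⟨⟨i, e.1.2, e.2⟩, mem_lq.2 (e.1.1.resolve_right e.2), rfl⟩, by
    rintro ⟨l, hl, rfl⟩
    exact ⟨⟨Or.inl (mem_lq.1 hl), l.2.1⟩, l.2.2⟩⟩

theorem qp_out (hc : S.Cen) : qp S b q \ S.st b = q \ S.st b := by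
  ext i
  rw [mem_sdiff, mem_sdiff, qp, mem_union, mem_pure hc, MS.mem_st]
  exact ⟨fun e => ⟨e.1.resolve_right fun a => e.2 (a ▸ mem_singleton_self _), e.2⟩,
    fun e => ⟨Or.inl e.1, e.2⟩⟩

theorem qp_sub : q ∩ S.st b ⊆ qp S b q ∩ S.st b := inter_subset_inter_right subset_union_left

theorem qp_in : qp S b q ∩ S.st b ∩ q = q ∩ S.st b := by
  rw [inter_right_comm, qp, union_inter_cancel_left]

theorem qp_rest : (qp S b q ∩ S.st b) \ (q ∩ S.st b) = (qp S b q ∩ S.st b) \ q := by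
  ext i
  simp only [mem_sdiff, mem_inter]
  tauto

theorem vl_qr (h : S.Ok) (hc : S.Cen) (hx : (xt S s).Ok) (hl : 1 ≤ s.lam) (hG : s.G.PosDef)
    (o : ι → ℤ) : vl (rf S s o).G (qr S s q) * vl S.G (fce S {s.b}) =
      vl (dil S {s.b} s.lam).G q * vl S.G (qp S s.b q ∩ S.st s.b) := by
  rw [vl_split h.pd ((cls_fce S {s.b}).sat h) (qp S s.b q ∩ S.st s.b), qp_pure hc, qp_link hc,
    vl_image (G := S.G.submatrix Subtype.val Subtype.val) Subtype.val_injective
      fun _ _ _ _ => rfl]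
  refine (congrArg (· * _) (vl_blocks hx.pd (h.pd.submatrix Subtype.val_injective)
    (fun _ => inl_mem_disjSum) fun _ => inr_mem_disjSum)).trans ?_
  have : vl (xt S s).G (q.disjSum ∅) = _ := vl_blocks (ok_dil h _ hl).pd hG
    (fun _ => inl_mem_disjSum) fun _ => inr_mem_disjSum
  rw [this, vl_empty]
  ring

theorem wt_qr (h : S.Ok) (hc : S.Cen) (hq : Cls S q) (u : ι → ℤ) {a : ι → ℤ}
    (ha : ∀ i ∉ qp S s.b q ∩ S.st s.b, a i = 0) :
    S.wt (fce S {s.b}) (ob S s.b a) *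
      (rf S s (ob S s.b a)).wt (qr S s q) (zb S s (Sum.elim u 0) a) =
    (dil S {s.b} s.lam).wt q u * gs (S.fg (qp S s.b q) s.b (toR u)) fun i => (a i : ℝ) := by
  have e1 : (∀ i, i ∉ qr S s q → zb S s (Sum.elim u 0) a i = 0) ↔ ∀ i, i ∉ q → u i = 0 := by
    refine ⟨fun e i hi => e (Sum.inl (Sum.inl i)) (mt qr_old.1 hi), fun e i hi => ?_⟩
    rcases i with (i | i) | l
    · exact e i (mt qr_old.2 hi)
    · rfl
    · refine ha l fun e2 => hi (qr_link.2 ((mem_union.1 (mem_inter.1 e2).1).resolve_right ?_))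
      exact fun e3 => l.2.2 ((mem_pure hc).1 e3)
  have e2 : ∀ i, i ∉ fce S {s.b} → ob S s.b a i = 0 := fun i hi =>
    if_neg (mt (mem_pure hc).2 hi)
  rw [wt_eq, wt_eq, wt_eq, if_pos e2, if_congr e1 rfl rfl]
  split_ifs with hu
  swap
  · simp
  set c := toR (mix (S.st s.b) a u) with hcdef
  have e3 : ln2 S (qp S s.b q ∩ S.st s.b) c =
      qq (S.fg (qp S s.b q) s.b (toR u)) fun i => (a i : ℝ) := by
    rw [P057T1.ln2_fg h hc (cls_qp hq _) s.b (toR u) c fun j hj => by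
      rw [hcdef, toR_apply, toR_apply, mix_neg _ _ (mem_sdiff.1 hj).2]]
    congr 1
    funext i
    rw [hcdef, toR_apply, mix_pos _ _ (mem_inter.1 i.2).2]
  have e4 : ∀ j ∈ fce S {s.b}, toR (ob S s.b a) j = c j := fun j hj => by
    have := (mem_pure hc).1 hj
    rw [hcdef, toR_apply, toR_apply, ob, if_pos this,
      mix_pos _ _ (S.mem_st.2 (this ▸ mem_singleton_self _))]
  have e5 : ln2 S (fce S {s.b}) (toR (ob S s.b a)) = ln2 S (fce S {s.b}) c :=
    P057T1.ln2_congr fun j hj => by rw [e4 j hj, P057T1.cls_p h (cls_fce S _) e4 hj]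
  have e6 : ln2 (rf S s (ob S s.b a)) (qr S s q) (toR (zb S s (Sum.elim u 0) a)) =
      ln2 (dil S {s.b} s.lam) q (toR u) + ln2 S ((lq S s.b q).image Subtype.val) c := by
    refine (qq_blocks _ _ (fun _ => inl_mem_disjSum) (fun _ => inr_mem_disjSum) _).trans ?_
    congr 1
    · refine (qq_blocks _ _ (fun _ => inl_mem_disjSum) (fun _ => inr_mem_disjSum) _).trans ?_
      rw [show ∀ w : s.X → ℝ, msk ∅ w = 0 from fun w => funext fun x => msk_neg _ (notMem_empty x),
        qq_zero, add_zero]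
      rfl
    unfold ln2
    rw [qq_msk_image (G := S.G.submatrix Subtype.val Subtype.val) Subtype.val_injective
      fun _ _ _ _ => rfl]
    congr 2
    funext l
    change _ - S.p (bv S s _ _) l = c l - _
    rw [bv_ob, hcdef, toR_apply, toR_apply, mix_pos _ _ (S.mem_st.2 l.2.1)]
    rfl
  rw [gs, ← e3, ln2_split h ((cls_fce S {s.b}).sat h) (qp S s.b q ∩ S.st s.b), qp_pure hc,
    qp_link hc, e5, e6, ← Real.exp_add, ← Real.exp_add]
  congr 1
  ring

/-- the mean of the refined sums as a series over a displacement and a centre -/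
theorem dec_qr (h : S.Ok) (hc : S.Cen) (hx : (xt S s).Ok) (hq : Cls S q) {M : (ι → ℝ) → ℝ}
    {C : ℝ} (m0 : ∀ y, 0 ≤ M y) (m1 : ∀ y, |M y| ≤ C) :
    ∃ N, HasSum (fun o => S.wt (fce S {s.b}) o *
        ∑' z, (rf S s o).wt (qr S s q) z * M (mp S s o (toR z))) N ∧
      HasSum (fun u => (dil S {s.b} s.lam).wt q u * ∑' x : ↥(qp S s.b q ∩ S.st s.b) → ℤ,
        gs (S.fg (qp S s.b q) s.b (toR u)) (toR x) *
          M (toR (mix (S.st s.b) (put _ x 0 + s.d • u) u))) N := by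
  let f : (ι → ℤ) × ((ι ⊕ s.X) ⊕ Lk S s.b → ℤ) → ℝ := fun p => S.wt (fce S {s.b}) p.1 *
    ((rf S s p.1).wt (qr S s q) p.2 * M (mp S s p.1 (toR p.2)))
  have f0 : ∀ p, 0 ≤ f p := fun p =>
    mul_nonneg (MS.wt_nonneg _ _) (mul_nonneg (MS.wt_nonneg _ _) (m0 _))
  obtain ⟨D, hD⟩ := wt_bdd (V := V) (ok_rf h hx 0).pd
  have s1 : ∀ o, Summable fun z => (rf S s o).wt (qr S s q) z * M (mp S s o (toR z)) := fun o =>
    (ok_rf h hx o).summable_re _ fun _ => m1 _
  have hf : Summable f := by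
    refine (summable_prod_of_nonneg (f := f) f0).2 ⟨fun o => ?_, ?_⟩
    · exact (s1 o).mul_left (S.wt (fce S {s.b}) o)
    simp only [f, tsum_mul_left]
    refine h.summable_re _ (C := D * C) fun o => ?_
    exact (Wt.abs_le ⟨MS.wt_nonneg _, (ok_rf h hx o).summable _⟩ fun _ => m1 _).trans
      (mul_le_mul_of_nonneg_right (hD (rf S s o) rfl (ok_rf h hx o) _)
        ((abs_nonneg _).trans (m1 0)))
  let e : (ι → ℤ) × (↥(qp S s.b q ∩ S.st s.b) → ℤ) → (ι → ℤ) × ((ι ⊕ s.X) ⊕ Lk S s.b → ℤ) :=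
    fun p => (ob S s.b (put _ p.2 0), zb S s (Sum.elim p.1 0) (put _ p.2 0))
  have he : Function.Injective e := by
    rintro ⟨u, x⟩ ⟨u', x'⟩ e1
    obtain ⟨e2, e3⟩ := Prod.ext_iff.1 e1
    refine Prod.ext (funext fun a => congrFun e3 (Sum.inl (Sum.inl a))) (funext fun i => ?_)
    by_cases hi : S.fc i = {s.b}
    · simpa only [e, ob, if_pos hi, put_coe] using congrFun e2 i
    · simpa only [e, zb, Sum.elim_inr, put_coe] using
        congrFun e3 (Sum.inr ⟨i, S.mem_st.1 (mem_inter.1 i.2).2, hi⟩)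
  have hz : ∀ p ∉ Set.range e, f p = 0 := by
    rintro ⟨o, z⟩ hp
    by_contra h0
    have h1 : ∀ i, i ∉ fce S {s.b} → o i = 0 := fun i hi => by_contra fun a =>
      h0 (mul_eq_zero_of_left (MS.wt_eq_zero hi a) _)
    have h2 : ∀ i, i ∉ qr S s q → z i = 0 := fun i hi => by_contra fun a =>
      h0 (mul_eq_zero_of_right _ (mul_eq_zero_of_left (MS.wt_eq_zero hi a) _))
    refine hp ⟨(fun i => z (Sum.inl (Sum.inl i)), fun i => if h' : S.fc i = {s.b} then o i else
      z (Sum.inr ⟨i, S.mem_st.1 (mem_inter.1 i.2).2, h'⟩)), Prod.ext (funext fun i => ?_)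
      (funext fun i => ?_)⟩
    · by_cases hi : S.fc i = {s.b}
      · have := (qp_pure (q := q) hc).superset ((mem_pure hc).2 hi)
        simp only [e, ob, if_pos hi, put_pos _ _ (mem_inter.1 this).1, dif_pos hi]
      · exact (if_neg hi).trans (h1 i (mt (mem_pure hc).1 hi)).symm
    · rcases i with (i | i) | l
      · rfl
      · exact (h2 _ qr_new).symm
      · by_cases hl : l.1 ∈ q
        · exact (put_pos _ _ (qp_sub (mem_inter.2 ⟨hl, S.mem_st.2 l.2.1⟩))).trans (dif_neg l.2.2)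
        · refine (put_neg _ _ fun a => ?_).trans (h2 _ (mt qr_link.1 hl)).symm
          exact (mem_union.1 (mem_inter.1 a).1).elim hl fun a => l.2.2 ((mem_pure hc).1 a)
  have s2 := (he.hasSum_iff hz).2 hf.hasSum
  refine ⟨_, (hf.hasSum.prod_fiberwise fun o => ((s1 o).hasSum.mul_left _)), ?_⟩
  refine (s2.prod_fiberwise fun u => (s2.summable.prod_factor u).hasSum).congr_fun fun u => ?_
  rw [← tsum_mul_left]
  refine tsum_congr fun x => ?_
  simp only [f, e, Function.comp_apply, mp_ob]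
  rw [← mul_assoc, ← mul_assoc, wt_qr h hc hq u (a := put _ x 0) fun i hi => put_neg _ _ hi]
  congr 3
  funext i
  rw [put_coe, toR_apply]

theorem qq_fg (h : S.Ok) (hc : S.Cen) (hq : Cls S q) (v : V) (y : ι → ℝ)
    (t : ↥(q ∩ S.st v) → ℝ) : qq (S.fg q v y) t = ln2 S (q ∩ S.st v) (put _ t y) := by
  rw [P057T1.ln2_fg h hc hq v y _ fun j hj =>
    put_neg _ _ fun a => (mem_sdiff.1 hj).2 (mem_inter.1 a).2]
  congr 1
  exact funext fun i => (put_coe _ _ i).symm

theorem qq_res (h : S.Ok) (hc : S.Cen) (hq : Cls S q) (y : ι → ℝ)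
    (v : ↥(qp S b q ∩ S.st b) → ℝ) :
    qq (S.fg q b y) (res qp_sub v) = ln2 S (q ∩ S.st b) (put _ v y) := by
  rw [P057T1.ln2_fg h hc hq b y _ fun j hj =>
    put_neg _ _ fun a => (mem_sdiff.1 hj).2 (mem_inter.1 a).2]
  congr 1
  exact funext fun i => (put_pos _ _ (qp_sub i.2)).symm

theorem fg_nar (q : Finset ι) (v : V) (y : ι → ℝ) (W : ℝ) :
    (nar S W).fg q v y = W ^ 2 • S.fg q v y := by
  change (blk (S.lm v y) _)ᵀ * (W ^ 2 • blk S.G _) * blk (S.lm v y) _ = _
  rw [Matrix.mul_smul, Matrix.smul_mul]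
  rfl

theorem wt_le_nar (h : S.Ok) {W : ℝ} (hW : W ^ 2 ≤ 1) (q : Finset ι) (z : ι → ℤ) :
    S.wt q z ≤ (nar S W).wt q z := by
  rw [wt_eq, wt_eq, ln2_nar]
  split_ifs
  · exact Real.exp_le_exp.2 (neg_le_neg (mul_le_mul_of_nonneg_left
      (mul_le_of_le_one_left (ln2_nonneg h _) hW) Real.pi_pos.le))
  · exact le_rfl

/-- the third moment of the dual theta series of the fibres -/
theorem cube_mass (h : S.Ok) (hc : S.Cen) (hq : Cls S q) (b : V) {c : ℝ} (h1 : 1 ≤ c) :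
    HasSum (fun y => S.wt (q \ S.st b) y * th (c ^ 2 • S.fg q b (toR y))⁻¹ 0 ^ 3)
      ((dup S 0 (sg S 0 b fun _ : Fin 3 => c)).mass (qC S 0 q b) * vl S.G (q \ S.st b)) := by
  have hs := P057PI.sc_sg (S := S) (c0 := (0 : Fin 3)) q b (σ := fun _ => c) fun _ => h1
  have hp : ∀ y, (c ^ 2 • S.fg q b y).PosDef := fun y => (h.fg_pos q b y).smul (by positivity)
  have e : ∀ y, vol (c ^ 2 • S.fg q b y) = vol (c ^ 2 • S.fg q b 0) := fun y => by
    rw [vol_smul (by positivity), vol_smul (by positivity), h.vol_fg, h.vol_fg]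
  have p := vol_pos (hp 0)
  have p2 := vl_pos h.pd (q \ S.st b)
  have k := (P057PI.cop_sum h hc hq hs (g := fun _ => 1) (B := 1) fun _ => by simp).div_const
    (vol (c ^ 2 • S.fg q b 0) ^ 3)
  simp only [mul_one] at k
  have e1 : (dup S 0 (sg S 0 b fun _ : Fin 3 => c)).mass (qC S 0 q b) * vl S.G (q \ S.st b) =
      (∑' Y, (dup S 0 (sg S 0 b fun _ : Fin 3 => c)).wt (qC S 0 q b) Y) /
        vol (c ^ 2 • S.fg q b 0) ^ 3 := by
    rw [MS.mass, (P057PI.cop_split h hs).2 0]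
    simp only [prod_const, card_univ, Fintype.card_fin]
    field_simp
  rw [e1]
  refine k.congr_fun fun y => ?_
  rw [(P057PI.wt_pi fun _ : Fin 3 => wt_gs0 (hp (toR y))).2, tsum_gs0, th_zero_eq (hp _), e]
  simp only [prod_const, card_univ, Fintype.card_fin]
  field_simp

end

end Vale.Agent.P057LU
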