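import Vale.Agent.P057DP.Plan
import Vale.Agent.P057RC.Shear
import Vale.Agent.P057RA.Root

/-!
Dictionary between the test systems and the root systems: one copy of the vertices.
-/

set_option linter.unusedSectionVars false

open Matrix Finset
open Vale.Agent.P267.H775 Vale.Agent.P057G Vale.Agent.P057MA Vale.Agent.P057PC
open Vale.Agent.P057TP Vale.Agent.P057GH Vale.Agent.P057SG Vale.Agent.P057DP
open Vale.Agent.P057RC (bs_none gz cz qF lvs rB eF fr)
open Vale.Agent.P057T1 (ind)
open Vale.Agent.P057SY (fo)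
open Vale.Agent.P057IV (OnP den)

namespace Vale.Agent.P057LU

noncomputable section

section gen

variable {T : Tow} {C W X X₁ X₂ : Type} {cl : W → C} {m : ℕ} [Fintype W] [DecidableEq W]
  [Fintype X] [DecidableEq X] [Fintype X₁] [DecidableEq X₁] [Fintype X₂] [DecidableEq X₂]

theorem mem_b0 {O : Ov W X} {P : X → Prop} {l : LT T cl m O} :
    l ∈ b0 T cl m O Unit Empty P ↔ Sum.inr () ∉ l.fc ∧ ∀ x, Sum.inl x ∈ l.fc → P x := by
  refine (@mem_filter _ _ (_) _ _).trans ?_
  rw [and_iff_right (mem_univ l), Kp, and_iff_right (bs_none l), Unique.forall_iff]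

theorem mem_st {O : Ov W X} {P : X → Prop} {l : LT T cl m O} :
    l ∈ st T cl m O P ↔ Sum.inr () ∈ l.fc ∧ ∀ x, Sum.inl x ∈ l.fc → P x := by
  classical
  unfold st
  rw [mem_filter, and_iff_right (mem_univ l)]

theorem cc_ov (O : Ov W X) (K : Type) : Cc (O.j K) (O.cl cl K) := by
  have k : ∀ v w, O.j K v = some w → O.cl cl K v = some (cl w) := by
    rintro (v | v) w h
    · have h' : (if O.jk v then some (O.π v) else none) = some w := h
      split_ifs at h'
      exact congrArg (fun x => some (cl x)) (Option.some_injective _ h')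
    · cases h
  exact fun v v' w h h' => (k v w h).trans (k v' w h').symm

theorem Ev_lift {C₁ C₂ : Type} (Z : Sys T W Unit) {j₁ : X₁ → Option W} {j₂ : X₂ → Option W}
    {cl₁ : X₁ → C₁} {cl₂ : X₂ → C₂} {g : X₁ → X₂}
    (hc : ∀ w w', cl₂ (g w) = cl₂ (g w') ↔ cl₁ w = cl₁ w') (h₁ : Cc j₁ cl₁) (h₂ : Cc j₂ cl₂)
    (hg : g.Injective) (hj : ∀ v, j₂ (g v) = j₁ v) {a₁ : Finset X₁ → Option Empty → ℝ}
    {a₂ : Finset X₂ → Option Empty → ℝ} {q : Finset (Lb T cl₁ Empty m)}
    (ha : ∀ l ∈ q, a₂ (l.fc.image g) (l.bs.map id) = a₁ l.fc l.bs)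
    (f : (Lb T cl₁ Empty m → ℤ) → ℂ) :
    Ev (cub (pbo Z j₂ Empty) cl₂ m a₂ 0) (q.image (lift hc id)) (fun z => f (z ∘ lift hc id)) =
      Ev (cub (pbo Z j₁ Empty) cl₁ m a₁ 0) q f :=
  Ev_image (lift_inj hc hg Function.injective_id)
    (fun i hi j _ => sG_lift hc hg Function.injective_id (ha i hi) j)
    (fun z i _ => congrArg (· + (0 : ℝ)) (pr_pbo hc h₁ h₂ hg Function.injective_id hj z i)) f

open Classical in
theorem sub_pm {O₁ : Ov W X₁} {O₂ : Ov W X₂} (P : X₂ → Prop) {g : X₂ → X₁}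
    (hg : ∀ x, O₁.π (g x) = O₂.π x) {R : Type} [CommRing R] (z : LT T cl m O₂ → R)
    (k : LT T cl m O₁) : sub (ex (pm P g)) z k =
      ∑ l, if (∀ x, Sum.inl x ∈ l.fc → P x) ∧ lf hg id id l = k then z l else 0 := by
  refine sum_congr rfl fun l _ => ?_
  have e : ∀ x ∈ l.fc, ∑ v ∈ k.fc, ex (pm P g) x v =
      if (∀ y, Sum.inl y = x → P y) ∧ Sum.map g id x ∈ k.fc then 1 else 0 := fun x _ => by
    have : ∀ v, ex (pm P g) x v = if Sum.map g id x = v then
        (if ∀ y, Sum.inl y = x → P y then 1 else 0) else 0 := fun v => by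
      rcases x with x | x <;> rcases v with v | v <;> simp [ex, pm, ← ite_and, and_comm]
    simp only [this, sum_ite_eq, ite_and]
    split_ifs <;> rfl
  rw [prod_congr rfl e, prod_boole]
  have key : (l.cd = k.cd ∧ ∀ x ∈ l.fc, (∀ y, Sum.inl y = x → P y) ∧ Sum.map g id x ∈ k.fc) ↔
      (∀ x, Sum.inl x ∈ l.fc → P x) ∧ lf hg id id l = k := by
    refine ⟨fun h => ⟨fun x hx => (h.2 _ hx).1 x rfl, lb_ext h.1 (eq_of_subset_of_card_le
      (image_subset_iff.2 fun x hx => (h.2 x hx).2) (le_of_eq ?_))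
      ((bs_none _).trans (bs_none _).symm)⟩, fun h => ⟨h.2 ▸ rfl, fun x hx =>
      ⟨fun y e => h.1 y (e ▸ hx), h.2 ▸ mem_image_of_mem _ hx⟩⟩⟩
    rw [k.card_eq (bs_none _), ← h.1]
    exact ((lf hg id id l).card_eq (bs_none _)).symm
  rw [← if_congr key rfl rfl, ite_and]
  split_ifs <;> simp

/-- the special vertex as a star vertex -/
def oe (x : Option W) : W ⊕ Unit := x.elim (Sum.inr ()) Sum.inl

theorem oe_inj : Function.Injective (oe : Option W → _) := by
  rintro (_ | a) (_ | b) h <;> simp_all [oe]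

theorem inl_fo {l : Lb T cl Unit m} {w : W} : Sum.inl w ∈ (fo l).image oe ↔ w ∈ l.fc := by
  refine (oe_inj.mem_finset_image (a := some w)).trans ?_
  unfold fo
  split_ifs <;> simp

theorem inr_fo {l : Lb T cl Unit m} : Sum.inr () ∈ (fo l).image oe ↔ l.bs ≠ none :=
  (oe_inj.mem_finset_image (a := none)).trans P057RA.none_fo

/-- a pure label as a label of the test system -/
def kp (l : Lb T cl Unit m) (h : l.Pure) : LT T cl m (Ov.one W) :=
  ⟨(l.cd, (fo l).image oe, none), l.2.1, by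
    rintro (a | a) ha (b | b) hb e
    · exact congrArg _ (l.2.2.1 (inl_fo.1 ha) (inl_fo.1 hb) (Option.some_injective _ e))
    · cases e
    · cases e
    · rfl, by
    change ((fo l).image oe).card = T.lv l.cd
    rw [card_image_of_injective _ oe_inj]
    unfold fo
    split_ifs with e
    · rw [card_image_of_injective _ (Option.some_injective _), l.card_eq e]
    · rw [card_insert_of_notMem (by simp), card_image_of_injective _ (Option.some_injective _)]
      exact h.resolve_left e⟩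

theorem kp_iff {l : Lb T cl Unit m} (h : l.Pure) (k : LT T cl m (Ov.one W)) :
    k = kp l h ↔ k.cd = l.cd ∧ k.fc.image (Sum.elim some fun _ => none) = fo l := by
  have e1 : ∀ x : W ⊕ Unit, oe (Sum.elim some (fun _ => none) x) = x := by rintro (x | x) <;> rfl
  have e2 : ∀ x : Option W, Sum.elim some (fun _ => none) (oe x) = x := by rintro (_ | x) <;> rfl
  refine ⟨fun e => ⟨e ▸ rfl, ?_⟩, fun e => lb_ext e.1 ?_ (bs_none _)⟩
  · rw [e]
    exact image_image.trans ((image_congr fun x _ => e2 x).trans image_id)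
  · change _ = (fo l).image oe
    rw [← e.2]
    exact (image_image.trans ((image_congr fun x _ => e1 x).trans image_id)).symm

theorem dc_kp (y : LT T cl m (Ov.one W) → ℝ) {l : Lb T cl Unit m} (h : l.Pure) :
    dc y l = y (kp l h) := by
  unfold dc
  rw [sum_eq_single (kp l h) (fun k _ e => if_neg fun a => e ((kp_iff h k).2 ⟨a.1, a.2.1⟩))
    (fun e => absurd (mem_univ _) e)]
  exact if_pos ⟨rfl, ((kp_iff h _).1 rfl).2, h⟩

theorem dc_np (y : LT T cl m (Ov.one W) → ℝ) {l : Lb T cl Unit m} (h : ¬ l.Pure) : dc y l = 0 :=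
  sum_eq_zero fun _ _ => if_neg fun a => h a.2.2

theorem rp_dc (y : LT T cl m (Ov.one W) → ℝ) :
    rp (dc y) = fun l => round (y (kp l.1 (Or.inl l.2))) :=
  funext fun l => congrArg round (dc_kp y (Or.inl l.2))

theorem rp_dcz (z : LT T cl m (Ov.one W) → ℤ) :
    rp (dc (toR z)) = fun l => z (kp l.1 (Or.inl l.2)) := by
  rw [rp_dc]; funext l; exact round_intCast _

theorem kp_b0 (l : PW T cl m) :
    kp l.1 (Or.inl l.2) ∈ b0 T cl m (Ov.one W) Unit Empty fun _ => True :=
  mem_b0.2 ⟨fun h => inr_fo.1 h l.2, fun _ _ => trivial⟩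

theorem conv2 (ψ : (PW T cl m → ℤ) → LS T cl m → ℝ) :
    Fo cl m (Ov.one W) (fun _ => True) fun x => P057SG.fm ψ (dc x) := by
  refine ⟨fun z z' h => ?_, fun y => ?_⟩
  · rw [show z = z' from funext fun l => h l (mem_union.2 (by
      rw [mem_b0, mem_st]; tauto))]
  · have e : ∀ x, P057SG.fm ψ (dc (mix (st T cl m (Ov.one W) fun _ => True) x y)) =
        ψ (rp (dc y)) ⬝ᵥ fun l : LS T cl m => x (kp l.1 l.2.1) := fun x => by
      unfold P057SG.fm
      congr 1
      · rw [rp_dc, rp_dc]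
        congr 1
        funext l
        rw [mix_neg _ _ fun h => (mem_b0.1 (kp_b0 l)).1 (mem_st.1 h).1]
      · funext l
        rw [dc_kp _ l.2.1, mix_pos _ _ (mem_st.2 ⟨inr_fo.2 l.2.2, fun _ _ => trivial⟩)]
    simp only [e]
    exact ⟨fun x x' => by rw [← dotProduct_add]; rfl, fun c x => by rw [← dotProduct_smul]; rfl⟩

theorem conv3 {α : Type} (Q : (PW T cl m → ℤ) → α) :
    Dp (b0 T cl m (Ov.one W) Unit Empty fun _ => True) fun z => Q (rp (dc (toR z))) :=
  fun z z' h => by
    beta_reduce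
    rw [rp_dcz, rp_dcz]
    exact congrArg Q (funext fun l => h _ (kp_b0 l))

theorem conv4 {K : Type} [Fintype K] [DecidableEq K] (e : K)
    (z : LK T cl m (Ov.one W) K Unit → ℤ) :
    rp (dc (toR (z ∘ lt (g := id) (fun _ => rfl) e))) = kw z := by
  rw [rp_dcz]
  funext l
  refine congrArg z (lb_ext rfl ?_ (congrArg (Option.map id) l.2).symm)
  change ((fo l.1).image oe).image _ = l.1.fc.image Sum.inl
  rw [fo, if_pos (show l.1.bs = none from l.2), image_image, image_image]
  rfl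

end gen

variable {T : Tow} {n p s : ℕ} {R : Type} {N : ℝ} [Fintype R] [DecidableEq R]
  {Z : Sys T (Uv n p R) Unit}

/-- old vertices as frozen vertices -/
def g1 : Uv n p R ⊕ Unit → Vt n p R := Sum.elim fr fun _ => none

theorem hc_g1 (w w' : Uv n p R ⊕ Unit) : cV (g1 w) = cV (g1 w') ↔
    (Ov.one (Uv n p R)).cl cU Unit w = (Ov.one (Uv n p R)).cl cU Unit w' := by
  rcases w with w | w <;> rcases w' with w' | w' <;> simp [g1, fr, cV, Ov.cl, Ov.one]

theorem lift_kp (l : Pg T n p R) : lift hc_g1 id (kp l.1 (Or.inl l.2)) = (eF l).1 := by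
  refine lb_ext (P057RC.eF_cd l).symm ?_ ((bs_none _).trans (bs_none _).symm)
  change ((fo l.1).image oe).image g1 = _
  rw [P057RC.eF_fc, fo, if_pos (show l.1.bs = none from l.2), image_image, image_image]
  rfl

theorem conv1 (Φ : (Pg T n p R → ℤ) → ℝ) : Er (tst cU (n + 2) Z (Ov.one _) (fun _ => 1) 1)
    (b0 T cU (n + 2) (Ov.one _) Unit Empty fun _ => True) (fun z => Φ (rp (dc (toR z)))) =
      ∑' w, wP Z w * Φ w := by
  have h := Ev_lift Z hc_g1 (cc_ov _ Unit) P057RC.cc_jk (by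
      rintro (a | a) (b | b) h <;> simp_all [g1, fr]) (by rintro (a | a) <;> rfl)
    (a₁ := fun A _ => if Sum.inr () ∈ A then 1 else sc (fun _ => 1) A) (a₂ := P057RC.sc 1 1)
    (q := b0 T cU (n + 2) (Ov.one _) Unit Empty fun _ => True) (fun l _ => by
      refine (prod_eq_one fun x _ => by rcases x with _ | x | x <;> rfl).trans ?_
      split_ifs
      exacts [rfl, (prod_eq_one fun x _ => by rcases x with x | x <;> rfl).symm])
    fun z => (Φ (rp (dc (toR z))) : ℝ)
  have e : (b0 T cU (n + 2) (Ov.one _) Unit Empty fun _ => True).image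
      (P057GH.lift hc_g1 id) = qF T n p R := by
    ext l
    rw [mem_image, P057RC.mem_qF]
    refine ⟨?_, fun a => ⟨_, kp_b0 (eF.symm ⟨l, a⟩), by rw [lift_kp, Equiv.apply_symm_apply]⟩⟩
    rintro ⟨k, hk, rfl⟩
    refine P057RC.frz_iff.2 fun v hv => ?_
    obtain ⟨u | u, hu, rfl⟩ := mem_image.1 hv
    exacts [⟨u, rfl⟩, absurd hu (mem_b0.1 hk).1]
  have h2 := P057RC.Ev_qF (Z := Z) 1 1 fun z => ((Φ fun l => z (eF l).1 : ℝ) : ℂ)
  simp only [P057RC.gz_frz] at h2
  replace h2 := h2.trans (P057RC.tsum_wP (Z := Z) fun w => (Φ w : ℂ)).symm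
  simp only [e, rp_dcz, Function.comp, lift_kp] at h
  have h3 := (Ev_real _ _ _).symm.trans (h.symm.trans h2)
  simp only [← Complex.ofReal_mul, ← Complex.ofReal_tsum] at h3
  simp only [rp_dcz]
  exact Complex.ofReal_injective h3

theorem rl_bij : Function.Bijective (rl : Lr T n p R → _) :=
  ⟨lift_inj hc_rl oe_inj Function.injective_id, fun k => mem_lift hc_rl (k := id) oe_inj
    (B := univ) (o := none) (fun v _ => by
      rcases v with v | v
      exacts [mem_image_of_mem oe (mem_univ (some v)), mem_image_of_mem oe (mem_univ none)])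
    (Or.inl (bs_none _))⟩

theorem star_rl {l : Lr T n p R} : Sum.inr () ∈ (rl l).fc ↔ none ∈ l.fc :=
  oe_inj.mem_finset_image (a := none)

/-- the old labels of a configuration of the test system -/
theorem rm_eq {x : LT T cU (n + 2) (O0 n p R) → ℝ} {y : Lv T n p R → ℝ} {D : Fz T n p R → ℤ}
    (h : ∀ l, x (rl l) = gl2 y D l) : rm x = rmap D y := by
  funext l
  by_cases hl : l.Pure
  · rw [rm, dc_kp _ hl, sub_pm (O₁ := Ov.one _) (g := (O0 n p R).π) _ fun _ => rfl, rmap]
    refine (Fintype.sum_bijective _ rl_bij _ _ fun k => ?_).symm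
    rw [h]
    refine @if_congr _ _ _ (_) (_) _ _ _ _ ?_ rfl rfl
    rw [kp_iff, and_iff_left hl, and_iff_right fun _ _ => trivial]
    refine and_congr Iff.rfl (Eq.congr_left ?_)
    change _ = ((k.fc.image oe).image _).image _
    rw [image_image, image_image]
    refine image_congr fun v _ => ?_
    rcases v with _ | v | v <;> rfl
  · exact (dc_np _ hl).trans (sum_eq_zero fun _ _ => if_neg fun a => hl a.2.2).symm

theorem conv5 (z : LT T cU (n + 2) (O0 n p R) → ℤ) :
    rmap (fun l => z (rl l.1)) (fun l => z (rl l.1)) = rm (toR z) :=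
  (rm_eq fun l => by unfold gl2; split_ifs <;> rfl).symm

variable {lam γ : ℝ} {U : (Fz T n p R → ℤ) → (Lv T n p R → ℝ) → Prop}

theorem mem_BB {l : Lr T n p R} : P057SG.lf l ⊆ BB n ↔ none ∉ l.fc := by
  rw [BB, subset_erase, and_iff_right (subset_univ _), P057RA.none_lf]

theorem conv6 (hU : ∀ D, OnP (fce (root Z lam γ D) (BB n)) (U D)) :
    Dp (b0 T cU (n + 2) (O0 n p R) Unit Empty fun _ => True) (ev U) := by
  have k : ∀ z z', (∀ i ∈ b0 T cU (n + 2) (O0 n p R) Unit Empty fun _ => True, z i = z' i) →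
      ev U z → ev U z' := fun z z' h a => by
    have h1 : ∀ l : Lr T n p R, none ∉ l.fc → z (rl l) = z' (rl l) := fun l hl =>
      h _ (mem_b0.2 ⟨mt star_rl.1 hl, fun _ _ => trivial⟩)
    unfold ev at a ⊢
    rw [← show (fun l : Fz T n p R => z (rl l.1)) = fun l => z' (rl l.1) from
      funext fun l => h1 _ fun b => l.2 ⟨none, P057RA.none_lf.2 b⟩]
    exact hU _ _ _ (fun l hl => congrArg _ (h1 _ (mem_BB.1 (mem_fce.1 hl)))) a
  exact fun z z' h => propext ⟨k z z' h, k z' z fun i hi => (h i hi).symm⟩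

theorem conv7 (hT : T.Ok s N) (hZ : Z.Ok) (hl : 0 < lam) (hg : 0 < γ) :
    ∑' D, wD Z D * den (root Z lam γ D) (BB n) (U D) = dn cU (n + 2) Z (O0 n p R)
      (Sum.elim (fun _ => lam) fun _ => 1) (fun _ => True) (ev U) := by
  have h := Ev_lift Z hc_rl P057RC.cc_jk (cc_ov _ Unit) oe_inj (by rintro (_ | a | a) <;> rfl)
    (a₂ := fun A _ => if Sum.inr () ∈ A then 1 else sc (Sum.elim (fun _ => lam) fun _ => 1) A)
    (a₁ := P057RC.sc lam γ) (q := qF T n p R ∪ lvs (rB T n p R)) (fun l hl => by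
      have a := P057RC.mem_q.1 hl
      refine (if_neg (mt star_rl.1 a)).trans ((prod_image oe_inj.injOn).trans
        (prod_congr rfl fun v hv => ?_))
      rcases v with _ | v | v
      exacts [absurd hv a, rfl, rfl])
    fun z => (ind (U (fun l => z l.1) fun l => z l.1) : ℝ)
  have e : (qF T n p R ∪ lvs (rB T n p R)).image (P057GH.lift hc_rl id) =
      b0 T cU (n + 2) (O0 n p R) Unit Empty fun _ => True := by
    ext k
    obtain ⟨l, rfl⟩ := rl_bij.2 k
    refine (rl_bij.1.mem_finset_image).trans ?_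
    rw [P057RC.mem_q, mem_b0, star_rl, and_iff_left fun _ _ => trivial]
  have h1 := P057RC.conv hT hZ hl hg (r := rB T n p R) (fun i hi j y => P057RC.mem_rB.2
    (mem_BB.2 (y ▸ mem_BB.1 (P057RC.mem_rB.1 hi))))
    (f := fun z => (ind (U (fun l => z l.1) fun l => z l.1) : ℝ)) (B := 1) fun z => by
      rw [Complex.norm_real]; exact P057T1.abs_ind _
  simp only [P057RC.gz_live, P057RC.gz_frz] at h1
  rw [e] at h
  refine Complex.ofReal_injective (Eq.trans ?_ (h1.symm.trans (h.symm.trans (Ev_real _ _ _))))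
  simp only [Complex.ofReal_tsum, Complex.ofReal_mul, P057RC.den_eq, P057RC.fce_root]
  rfl

end

end Vale.Agent.P057LU
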