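import Vale.Agent.P057LU.CvA
import Vale.Agent.P057IV.Jt

/-!
Dictionary between the test systems and the root systems: four copies of the live vertices.
-/

set_option linter.unusedSectionVars false

open Matrix Finset
open Vale.Agent.P267.H775 Vale.Agent.P057G Vale.Agent.P057MA Vale.Agent.P057PC
open Vale.Agent.P057TP Vale.Agent.P057GH Vale.Agent.P057SG Vale.Agent.P057DP
open Vale.Agent.P057RC (bs_none gz)
open Vale.Agent.P057RA (mem_lf gl2_pos gl2_neg gl2_congr)
open Vale.Agent.P057T1 (pr a4)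
open Vale.Agent.P057IV (jt b4)

namespace Vale.Agent.P057LU

noncomputable section

abbrev V4 (n p : ℕ) (R : Type) : Type := ((Wv n p × Fin 4) ⊕ Uv n p R) ⊕ Unit

abbrev L4 (T : Tow) (n p : ℕ) (R : Type) : Type := LT T cU (n + 2) (O4 n p R)

variable {T : Tow} {n p : ℕ} {R : Type} [Fintype R] [DecidableEq R]
  {χ χ' : Option (Fin n) → Fin 4} {b : Fin n}

/-- the copy of a vertex on the transversal `χ` -/
def gx (χ : Option (Fin n) → Fin 4) (v : Vt n p R) : V4 n p R :=
  v.elim (Sum.inr ()) fun x => Sum.inl (Sum.map (fun w => (w, χ (some w.1))) id x)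

/-- the vertex below a copy -/
def pv : V4 n p R → Vt n p R := Sum.elim (fun x => some (Sum.map Prod.fst id x)) fun _ => none

theorem cl_pv (v : V4 n p R) : cV (pv v) = (O4 n p R).cl cU Unit v := by
  rcases v with (v | v) | v <;> rfl

theorem pv_gx (v : Vt n p R) : pv (gx χ v) = v := by rcases v with _ | v | v <;> rfl

theorem gx_inj : Function.Injective (gx χ : Vt n p R → _) := Function.LeftInverse.injective pv_gx

theorem hc_pv (w w' : V4 n p R) : cV (pv w) = cV (pv w') ↔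
    (O4 n p R).cl cU Unit w = (O4 n p R).cl cU Unit w' := by rw [cl_pv, cl_pv]

theorem hc_gx (χ : Option (Fin n) → Fin 4) (w w' : Vt n p R) : (O4 n p R).cl cU Unit (gx χ w) =
    (O4 n p R).cl cU Unit (gx χ w') ↔ cV w = cV w' := by rw [← hc_pv, pv_gx, pv_gx]

/-- the copy of a label -/
def lx (χ : Option (Fin n) → Fin 4) : Lr T n p R → L4 T n p R := P057GH.lift (hc_gx χ) id

/-- the label below a copy -/
def pj : L4 T n p R → Lr T n p R := P057GH.lift hc_pv id

/-- the transversal of a face -/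
def ix (A : Finset (V4 n p R)) (c : Option (Fin n)) : Fin 4 :=
  ∑ v ∈ A, Sum.elim (Sum.elim (fun w => if some w.1.1 = c then w.2 else 0) fun _ => 0)
    (fun _ => 0) v

theorem pj_lx (l : Lr T n p R) : pj (lx χ l) = l :=
  lb_ext rfl (image_image.trans ((image_congr fun v _ => pv_gx v).trans image_id))
    ((bs_none _).trans (bs_none _).symm)

theorem ix_mem {k : L4 T n p R} {w : Wv n p × Fin 4} (h : Sum.inl (Sum.inl w) ∈ k.fc) :
    ix k.fc (some w.1.1) = w.2 := by
  refine (sum_eq_single_of_mem _ h ?_).trans (if_pos rfl)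
  rintro ((v | v) | v) hv e
  exacts [if_neg fun a => e (k.2.2.1 hv h (congrArg some a)), rfl, rfl]

theorem ix_zero {A : Finset (V4 n p R)} {c : Option (Fin n)}
    (h : ∀ w, Sum.inl (Sum.inl w) ∈ A → some w.1.1 = c → w.2 = 0) : ix A c = 0 := by
  refine sum_eq_zero ?_
  rintro ((v | v) | v) hv
  exacts [ite_eq_right_iff.2 (h v hv), rfl, rfl]

theorem ix_none (A : Finset (V4 n p R)) : ix A none = 0 := ix_zero fun _ _ h => by cases h

theorem lx_ix (k : L4 T n p R) : lx (ix k.fc) (pj k) = k := by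
  refine lb_ext rfl (image_image.trans ((image_congr ?_).trans image_id))
    ((bs_none _).trans (bs_none _).symm)
  rintro ((v | v) | v) hv
  exacts [congrArg (fun i => Sum.inl (Sum.inl (v.1, i))) (ix_mem hv), rfl, rfl]

theorem some_lf {l : Lr T n p R} {c : Fin n} :
    some c ∈ P057SG.lf l ↔ ∃ w, some (Sum.inl w) ∈ l.fc ∧ w.1 = c := by
  rw [mem_lf]
  refine ⟨fun ⟨x, h1, h2⟩ => ?_, fun ⟨w, h1, h2⟩ => ⟨_, h1, h2 ▸ mem_singleton_self _⟩⟩
  rcases x with _ | w | w
  · cases mem_singleton.1 h2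
  · exact ⟨w, h1, (Option.some_injective _ (mem_singleton.1 h2)).symm⟩
  · exact absurd h2 (notMem_empty _)

theorem ix_lx (h : χ none = 0) {l : Lr T n p R} {c : Option (Fin n)} (hc : c ∈ P057SG.lf l) :
    ix (lx χ l).fc c = χ c := by
  rcases c with _ | c
  · rw [ix_none, h]
  · obtain ⟨w, h1, rfl⟩ := some_lf.1 hc
    exact ix_mem (w := (w, χ (some w.1))) (mem_image_of_mem (gx χ) h1)

theorem lx_congr {l : Lr T n p R} (h : ∀ c, some c ∈ P057SG.lf l → χ (some c) = χ' (some c)) :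
    lx χ l = lx χ' l := by
  refine lb_ext rfl (image_congr ?_) rfl
  rintro (_ | v | v) hv
  exacts [rfl, congrArg (fun i => Sum.inl (Sum.inl (v, i))) (h _ (some_lf.2 ⟨v, hv, rfl⟩)), rfl]

theorem star_lx {l : Lr T n p R} : Sum.inr () ∈ (lx χ l).fc ↔ none ∈ l.fc :=
  gx_inj.mem_finset_image (a := none)

theorem star_pj {k : L4 T n p R} : none ∈ (pj k).fc ↔ Sum.inr () ∈ k.fc := by
  rw [← star_lx (χ := ix k.fc), lx_ix]

/-- transversals that leave the base copy only in the class `b` -/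
def Ad (b : Fin n) (χ : Option (Fin n) → Fin 4) : Prop := ∀ c, c ≠ some b → χ c = 0

theorem Ad.none (h : Ad b χ) : χ none = 0 := h _ (by simp)

theorem ad_ch (c : Fin 4) : Ad b (P057T1.ch (some b) c) := fun _ h => Function.update_of_ne h _ _

theorem Ad.p4 (h : Ad b χ) (l : Lr T n p R) : ∀ x, Sum.inl x ∈ (lx χ l).fc → P4 b x := by
  intro x hx
  obtain ⟨_ | _ | _, -, e⟩ := mem_image.1 hx
  · cases e
  · cases e
    exact or_iff_not_imp_left.2 fun a => h _ fun e => a (Option.some_injective _ e)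
  · cases e
    trivial

theorem ad_ix {k : L4 T n p R} (h : ∀ x, Sum.inl x ∈ k.fc → P4 b x) : Ad b (ix k.fc) :=
  fun _ hc => ix_zero fun _ hw e => (h _ hw).resolve_left fun a => hc (a ▸ e.symm)

theorem pi_O4 (x : (Wv n p × Fin 4) ⊕ Uv n p R) :
    (O0 n p R).π (Sum.map Prod.fst id x) = (O4 n p R).π x := by rcases x with x | x <;> rfl

theorem rl_pj (k : L4 T n p R) : rl (pj k) = P057DP.lf pi_O4 id id k := by
  refine lb_ext rfl (image_image.trans (image_congr ?_)) ((bs_none _).trans (bs_none _).symm)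
  rintro ((v | v) | v) - <;> rfl

theorem sub_M4 {c c' : Fin 4} (hc : c ≠ c') (z : L4 T n p R → ℝ) (l : Lr T n p R) :
    sub (ex (M4 b c c')) z (rl l) = if some b ∈ P057SG.lf l then
      z (lx (P057T1.ch (some b) c) l) + z (lx (P057T1.ch (some b) c') l)
      else z (lx (P057T1.ch (some b) 0) l) := by
  classical
  have k0 : some b ∉ P057SG.lf l → ∀ i j, lx (P057T1.ch (some b) i) l =
      lx (P057T1.ch (some b) j) l := fun h i j => lx_congr fun d hd => by
    have : some d ≠ some b := fun e => h (e ▸ hd)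
    rw [ad_ch i _ this, ad_ch j _ this]
  have k1 : ∀ i, i = c ∨ i = c' → ∀ x, Sum.inl x ∈ (lx (P057T1.ch (some b) i) l).fc →
      Sum.elim (fun v => if v.1.1 = b then v.2 = c ∨ v.2 = c' else v.2 = 0) (fun _ => True) x := by
    intro i hi x hx
    obtain ⟨_ | w | w, -, e⟩ := mem_image.1 hx
    · cases e
    · cases e
      change if w.1 = b then _ else _
      split_ifs with a
      · simpa only [a, P057T1.ch, Function.update_self] using hi
      · exact ad_ch i _ fun e => a (Option.some_injective _ e)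
    · cases e
      trivial
  refine (sub_pm _ pi_O4 z (rl l)).trans ((sum_congr rfl fun k _ => @if_congr _ _
    (k ∈ ({lx (P057T1.ch (some b) c) l, lx (P057T1.ch (some b) c') l} : Finset _)) (_) _ _ _ _ _
    ?_ rfl rfl).trans ?_)
  swap
  · rw [sum_ite_mem, univ_inter]
    split_ifs with h
    · refine sum_pair fun e => hc ?_
      have := (ix_lx (ad_ch c).none h).symm.trans
        ((congrArg (fun k => ix k.fc (some b)) e).trans (ix_lx (ad_ch c').none h))
      simpa only [P057T1.ch, Function.update_self] using this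
    · rw [k0 h c 0, k0 h c' 0, pair_eq_singleton, sum_singleton]
  · rw [← rl_pj, rl_bij.1.eq_iff, mem_insert, mem_singleton]
    refine ⟨fun ⟨h1, h2⟩ => ?_, ?_⟩
    · have a : Ad b (ix k.fc) := ad_ix fun x hx => by
        have := h1 x hx
        rcases x with x | x
        exacts [or_iff_not_imp_left.2 fun e => (if_neg e).mp this, trivial]
      have e : k = lx (P057T1.ch (some b) (ix k.fc (some b))) l := by
        refine (lx_ix k).symm.trans (h2 ▸ lx_congr fun d _ => ?_)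
        by_cases e : some d = some b
        · rw [e, P057T1.ch, Function.update_self]
        · rw [a _ e, ad_ch _ _ e]
      by_cases h : some b ∈ P057SG.lf l
      · obtain ⟨w, h3, rfl⟩ := some_lf.1 h
        have h4 : Sum.inl (Sum.inl (w, ix k.fc (some w.1))) ∈ k.fc := by
          have := mem_image_of_mem (gx (ix k.fc)) (h2 ▸ h3 : some (Sum.inl w) ∈ (pj k).fc)
          rwa [← lift_fc (hc_gx _) (k := id), ← lx, lx_ix] at this
        have h5 : ix k.fc (some w.1) = c ∨ ix k.fc (some w.1) = c' := (if_pos rfl).mp (h1 _ h4)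
        exact h5.imp (fun y => by rwa [y] at e) fun y => by rwa [y] at e
      · exact Or.inl (e.trans (k0 h _ _))
    · rintro (rfl | rfl)
      exacts [⟨k1 c (Or.inl rfl), pj_lx l⟩, ⟨k1 c' (Or.inr rfl), pj_lx l⟩]

theorem pr_lx (Z : Sys T (Uv n p R) Unit) (X : L4 T n p R → ℝ) (l : Lr T n p R) :
    (pbo Z ((O4 n p R).j Unit) Empty).pr _ (n + 2) X (lx χ l) =
      (pbo Z jk Empty).pr cV (n + 2) (X ∘ lx χ) l :=
  pr_pbo (hc_gx χ) P057RC.cc_jk (cc_ov _ Unit) gx_inj Function.injective_id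
    (by rintro (_ | a | a) <;> rfl) X l

variable {Z : Sys T (Uv n p R) Unit} {lam γ μ : ℝ} {D : Fz T n p R → ℤ}

/-- the label of an index of the blow-up -/
def be (a : BI (root Z lam γ D).fc (0 : Fin 4)) : L4 T n p R := lx a.1.2 a.1.1.1

/-- the index of a live label -/
def al (Z : Sys T (Uv n p R) Unit) (lam γ : ℝ) (D : Fz T n p R → ℤ) (k : L4 T n p R)
    (h : Liv (pj k)) : BI (root Z lam γ D).fc (0 : Fin 4) := cp _ 0 (ix k.fc) ⟨pj k, h⟩

/-- the joint configuration -/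
def r4 (W : BI (root Z lam γ D).fc (0 : Fin 4) → ℝ) (k : L4 T n p R) : ℝ :=
  gl2 (W ∘ cp _ 0 (ix k.fc)) D (pj k)

/-- the joint integer configuration -/
def g4 (W : BI (root Z lam γ D).fc (0 : Fin 4) → ℤ) (k : L4 T n p R) : ℤ :=
  gz (W ∘ cp _ 0 (ix k.fc)) D (pj k)

theorem toR_g4 (W : BI (root Z lam γ D).fc (0 : Fin 4) → ℤ) : toR (g4 W) = r4 (toR W) :=
  funext fun k => congrFun (P057RC.toR_gz (W ∘ cp _ 0 (ix k.fc)) D) (pj k)

theorem r4_lx (h : χ none = 0) (W : BI (root Z lam γ D).fc (0 : Fin 4) → ℝ) :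
    r4 W ∘ lx χ = gl2 (W ∘ cp _ 0 χ) D := funext fun l => by
  rw [Function.comp_apply, r4, pj_lx]
  exact gl2_congr D fun _ => congrArg W (cp_congr fun c hc => ix_lx h hc)

theorem be_al (k : L4 T n p R) (h : Liv (pj k)) : be (al Z lam γ D k h) = k :=
  (lx_congr fun _ hc => cp_snd (fc := (root Z lam γ D).fc) _ hc).trans (lx_ix k)

theorem r4_be {a : BI (root Z lam γ D).fc (0 : Fin 4)} (h : a.1.2 none = 0)
    (W : BI (root Z lam γ D).fc (0 : Fin 4) → ℝ) : r4 W (be a) = W a :=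
  (congrFun (r4_lx h W) _).trans ((gl2_pos _ _ a.1.1.2).trans (congrArg W (cp_self a)))

theorem eqv {r' : Finset (BI (root Z lam γ D).fc (0 : Fin 4))} {r : Finset (L4 T n p R)}
    (h1 : ∀ a ∈ r', a.1.2 none = 0 ∧ be a ∈ r)
    (h2 : ∀ k ∈ r, ∃ h : Liv (pj k), al Z lam γ D k h ∈ r') :
    ∃ e : r' ≃ r, ∀ a, (e a).1 = be a.1 := by
  refine ⟨Equiv.ofBijective (fun a => ⟨be a.1, (h1 _ a.2).2⟩) ⟨fun a a' e => ?_, fun k => ?_⟩,
    fun _ => rfl⟩
  · have := (r4_be (h1 _ a.2).1 (Pi.single a.1 1)).symm.trans ((congrArg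
      (r4 (Pi.single a.1 1)) (congrArg Subtype.val e)).trans (r4_be (h1 _ a'.2).1 _))
    by_contra y
    rw [Pi.single_eq_same, Pi.single_eq_of_ne' fun c => y (Subtype.ext c)] at this
    exact one_ne_zero this
  · obtain ⟨h, a⟩ := h2 _ k.2
    exact ⟨⟨_, a⟩, Subtype.ext (be_al _ h)⟩

theorem mem_fb {B : Finset (Option (Fin n))} {a : BI (root Z lam γ D).fc (0 : Fin 4)} :
    a ∈ fce (jt (root Z lam γ D) (some b) μ) (b4 B (some b)) ↔
      (∀ c ∈ P057SG.lf a.1.1.1, c ≠ some b → c ∈ B) ∧ Ad b a.1.2 := by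
  refine mem_fce.trans ⟨fun h => ?_, fun h ⟨c, i⟩ hc => ?_⟩
  · have k : ∀ c ∈ P057SG.lf a.1.1.1, c ≠ some b → c ∈ B ∧ a.1.2 c = 0 := fun c hc e =>
      ((P057IV.mem_b4.1 (h ((mem_fc_blow (w := (c, a.1.2 c))).2 ⟨hc, rfl⟩))).resolve_right e).2
    refine ⟨fun c hc e => (k c hc e).1, fun c e => ?_⟩
    by_cases hc : c ∈ P057SG.lf a.1.1.1
    exacts [(k c hc e).2, a.2 c hc]
  · obtain ⟨h1, h2⟩ := mem_fc_blow.1 hc
    exact P057IV.mem_b4.2 (or_iff_not_imp_right.2 fun e =>
      ⟨e, h.1 c h1 e, h2.symm.trans (h.2 c e)⟩)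

theorem ad_al {k : L4 T n p R} (h : Liv (pj k)) (hk : ∀ x, Sum.inl x ∈ k.fc → P4 b x) :
    Ad b (al Z lam γ D k h).1.2 := fun c hc => ite_eq_right_iff.2 fun _ => ad_ix hk c hc

/-- the scales of all vertices -/
def t4 (b : Fin n) (lam γ μ : ℝ) : V4 n p R → ℝ := Sum.elim (s4 b lam μ) fun _ => γ

theorem G_be (hμ : 0 ≤ μ) {a a' : BI (root Z lam γ D).fc (0 : Fin 4)} (h : a.1.2 none = 0)
    (h' : a'.1.2 none = 0) {u : Finset (V4 n p R) → Option Empty → ℝ}
    (hu : u (be a).fc (be a).bs = ∏ v ∈ (be a).fc, t4 b lam γ μ v) :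
    (jt (root Z lam γ D) (some b) μ).G a a' = sG T _ Empty (n + 2) u (be a) (be a') := by
  change P057PI.sg _ 0 (some b) _ a * (if a.1.2 = a'.1.2 then
    (∏ x ∈ a.1.1.1.fc, sv lam γ x) * Gam T cV Empty (n + 2) a.1.1.1 a'.1.1.1 else 0) *
    P057PI.sg _ 0 (some b) _ a' = u _ _ * Gam T _ Empty (n + 2) (be a) (be a')
  split_ifs with e
  · rw [hu, be, be, ← e, lx, Gam_lift _ gx_inj Function.injective_id, lift_fc,
      prod_image gx_inj.injOn]
    by_cases g : Gam T cV Empty (n + 2) a.1.1.1 a'.1.1.1 = 0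
    · simp [g]
    have k : ∀ v : Vt n p R, t4 b lam γ μ (gx a.1.2 v) = sv lam γ v * if some b ∈ lc v then
        ![1, 1, √μ, √μ] (a.1.2 (some b)) * ![1, 1, √μ, √μ] (a.1.2 (some b)) else 1 := by
      rintro (_ | v | v)
      · simp [t4, gx, sv, lc]
      · by_cases y : v.1 = b
        · subst y
          simp only [t4, gx, sv, lc, s4, Option.elim, Sum.map_inl, Sum.elim_inl, true_and,
            mem_singleton, if_true]
          generalize a.1.2 (some v.1) = i
          fin_cases i <;> simp [hμ]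
        · simp [t4, gx, sv, lc, s4, y, Ne.symm y]
      · simp [t4, gx, sv, lc, s4]
    have f : (root Z lam γ D).fc a'.1.1 = P057SG.lf a.1.1.1 :=
      congrArg (fun A : Finset (Vt n p R) => A.biUnion lc) (Gam_ne g).1.symm
    simp only [k, prod_mul_distrib, P057PI.sg, f, ← e]
    change (if some b ∈ P057SG.lf a.1.1.1 then _ else _) * _ * _ = _
    split_ifs with y
    · obtain ⟨x, h1, h2⟩ := mem_lf.1 y
      rw [prod_eq_single_of_mem x h1 fun v hv c => if_neg fun d => c (a.1.1.1.2.2.1 hv h1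
        ((P057RA.cV_of_lc d).trans (P057RA.cV_of_lc h2).symm)), if_pos h2]
      ring
    · rw [prod_eq_one (s := a.1.1.1.fc) fun v hv => if_neg fun d => y (mem_lf.2 ⟨v, hv, d⟩)]
      ring
  · rw [mul_zero, zero_mul, eq_comm]
    refine mul_eq_zero_of_right _ (by_contra fun g => e (funext fun c => ?_))
    have g1 := (Gam_ne g).1
    have g2 : P057SG.lf a.1.1.1 = P057SG.lf a'.1.1.1 := by
      rw [← pj_lx (χ := a.1.2) a.1.1.1, ← pj_lx (χ := a'.1.2) a'.1.1.1]
      exact congrArg (fun A : Finset (V4 n p R) => (A.image pv).biUnion lc) g1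
    by_cases y : c ∈ P057SG.lf a.1.1.1
    · exact (ix_lx h y).symm.trans ((congrArg (ix · c) g1).trans (ix_lx h' (g2 ▸ y)))
    · exact (a.2 c y).trans (a'.2 c (g2 ▸ y :)).symm

/-- `X` is the joint configuration of `W` on the admissible transversals -/
def Jn (b : Fin n) (X : L4 T n p R → ℝ) (W : BI (root Z lam γ D).fc (0 : Fin 4) → ℝ) : Prop :=
  ∀ χ, Ad b χ → X ∘ lx χ = gl2 (W ∘ cp _ 0 χ) D

variable {X : L4 T n p R → ℝ} {W : BI (root Z lam γ D).fc (0 : Fin 4) → ℝ}

theorem jn_r4 (W : BI (root Z lam γ D).fc (0 : Fin 4) → ℝ) : Jn b (r4 W) W :=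
  fun _ h => r4_lx h.none W

theorem Jn.sub (h : Jn b X W) {c c' : Fin 4} (hc : c ≠ c') (l : Lr T n p R) :
    sub (ex (M4 b c c')) X (rl l) = gl2 (pr (root Z lam γ D) (some b) c c' W) D l := by
  have k := fun i => congrFun (h _ (ad_ch i)) l
  simp only [Function.comp_apply] at k
  rw [sub_M4 hc, k, k, k]
  split_ifs with y
  · have a : Liv l := ⟨_, y⟩
    rw [gl2_pos _ _ a, gl2_pos _ _ a, gl2_pos _ _ a]
    have : (⟨l, a⟩ : Lv T n p R) ∈ (root Z lam γ D).st (some b) := P057RA.mem_st.2 y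
    rw [pr, mix_pos _ _ this]
    rfl
  · refine gl2_congr D fun hk => ?_
    have : (⟨l, hk⟩ : Lv T n p R) ∉ (root Z lam γ D).st (some b) := fun e =>
      y (P057RA.mem_st.1 e)
    rw [pr, mix_neg _ _ this]

theorem Jn.cen (h : Jn b X W) {a : BI (root Z lam γ D).fc (0 : Fin 4)} (ha : Ad b a.1.2) :
    (jt (root Z lam γ D) (some b) μ).p W a =
      (pbo Z ((O4 n p R).j Unit) Empty).pr _ (n + 2) X (be a) + 0 := by
  rw [be, pr_lx, h _ ha, add_zero]
  rfl

theorem Jn.be (h : Jn b X W) {a : BI (root Z lam γ D).fc (0 : Fin 4)} (ha : Ad b a.1.2) :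
    X (be a) = W a :=
  (congrFun (h _ ha) _).trans ((gl2_pos _ _ a.1.1.2).trans (congrArg W (cp_self a)))

end

end Vale.Agent.P057LU
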