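import Vale.Agent.P057IV.Step

/-!
The mean of the refined systems as a series over a centre and a point of the extension.
-/

set_option linter.unusedSectionVars false

open Matrix Finset
open Vale.Agent.P267.H775 Vale.Agent.P057G Vale.Agent.P057MA Vale.Agent.P057IV
open Vale.Agent.P057T1 (ind)

namespace Vale.Agent.P057LU

noncomputable section

variable {V : Type} [Fintype V] [DecidableEq V] {ι : Type} [Fintype ι] [DecidableEq ι]

/-- the total weight is bounded in terms of the Gram matrix only -/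
theorem wt_bdd {G : Matrix ι ι ℝ} (hG : G.PosDef) :
    ∃ C, ∀ S : MS V ι, S.G = G → S.Ok → ∀ q, ∑' z, S.wt q z ≤ C := by
  obtain ⟨u, hu, hle⟩ := summable_near hG (1 / 2)
  refine ⟨∑' n, u n, fun S e h q => ?_⟩
  have ht : Tri S.lv fun z => msk q (S.p (toR z)) := by
    intro i z z' hz
    beta_reduce
    by_cases hi : i ∈ q
    · rw [msk_pos _ hi, msk_pos _ hi]
      exact h.loc i _ _ fun j hj => by rw [toR_apply, toR_apply, hz j hj.2]
    · rw [msk_neg _ hi, msk_neg _ hi]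
  have u0 : ∀ n, 0 ≤ u n := fun n => (gs_pos _ _).le.trans (hle n 0 fun _ => by simp)
  refine Summable.tsum_le_tsum_of_inj _ ht.inj (fun n _ => u0 n) (fun z => ?_) (h.summable q) hu
  unfold MS.wt
  split_ifs with hz
  · refine le_trans (le_of_eq ?_) (hle (fun i => z i - round (msk q (S.p (toR z)) i))
      (fun i => round (msk q (S.p (toR z)) i) - msk q (S.p (toR z)) i)
      fun i => by rw [abs_sub_comm]; exact abs_sub_round _)
    rw [e]
    congr 1
    funext i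
    simp only [Pi.add_apply, toR_apply]
    push_cast
    by_cases hi : i ∈ q
    · rw [msk_pos _ hi, msk_pos _ hi]
      simp only [MS.ps, Pi.sub_apply, toR_apply]
      ring
    · rw [msk_neg _ hi, msk_neg _ hi, hz i hi]
      simp
  · exact u0 _

variable {S : MS V ι} {s : Stp V ι} {F : Finset V}

theorem fg_congr (q : Finset ι) (v : V) {y y' : ι → ℝ} (e : ∀ j ∉ S.st v, y j = y' j) :
    S.fg q v y = S.fg q v y' := by
  have : ∀ x, mix (S.st v) x y = mix (S.st v) x y' := fun x => funext fun j => by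
    by_cases hj : j ∈ S.st v
    · rw [mix_pos _ _ hj, mix_pos _ _ hj]
    · rw [mix_neg _ _ hj, mix_neg _ _ hj, e j hj]
  simp only [MS.fg, MS.lm, slp, this]

/-- the base point of a centre -/
def ob (S : MS V ι) (b : V) (a : ι → ℤ) : ι → ℤ := fun i => if S.fc i = {b} then a i else 0

/-- the point of the refined system with the links of the centre `a` -/
def zb (S : MS V ι) (s : Stp V ι) (u : ι ⊕ s.X → ℤ) (a : ι → ℤ) : (ι ⊕ s.X) ⊕ Lk S s.b → ℤ :=
  Sum.elim u fun l => a l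

theorem bv_ob (u : ι ⊕ s.X → ℤ) (a : ι → ℤ) : bv S s (ob S s.b a) (toR (zb S s u a)) =
    toR (mix (S.st s.b) a (u ∘ Sum.inl)) := by
  funext i
  rcases tri S s.b i with h | ⟨l, rfl⟩ | h
  · rw [bv_pure h, toR_apply, mix_pos _ _ (S.mem_st.2 (h ▸ mem_singleton_self _)), ob, if_pos h]
  · rw [bv_link, toR_apply, toR_apply, mix_pos _ _ (S.mem_st.2 l.2.1)]; rfl
  · rw [bv_out h, toR_apply, toR_apply, mix_neg _ _ fun e => h (S.mem_st.1 e)]; rfl

theorem mp_ob (u : ι ⊕ s.X → ℤ) (a : ι → ℤ) : mp S s (ob S s.b a) (toR (zb S s u a)) =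
    toR (mix (S.st s.b) (a + s.d • (u ∘ Sum.inl)) (u ∘ Sum.inl)) := by
  funext i
  by_cases h : s.b ∈ S.fc i
  · rw [mp_in h, bv_ob, toR_apply, toR_apply, toR_apply, mix_pos _ _ (S.mem_st.2 h),
      mix_pos _ _ (S.mem_st.2 h)]
    simp [zb]
  · rw [mp_out h, toR_apply, toR_apply, mix_neg _ _ fun e => h (S.mem_st.1 e)]; rfl

theorem mem_pure (hc : S.Cen) {b : V} {i : ι} : i ∈ fce S {b} ↔ S.fc i = {b} := by
  rw [mem_fce, subset_singleton_iff]
  exact or_iff_right (hc.ne i).ne_empty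

/-- the links inside `F` -/
def lk (S : MS V ι) (b : V) (F : Finset V) : Finset (Lk S b) := univ.filter fun l => l.1 ∈ fce S F

theorem mem_lk {b : V} {l : Lk S b} : l ∈ lk S b F ↔ l.1 ∈ fce S F := by simp [lk]

theorem inr_mem (hb : s.b ∈ F) (o : ι → ℤ) (l : Lk S s.b) :
    Sum.inr l ∈ fce (rf S s o) F ↔ l ∈ lk S s.b F := by
  rw [mem_lk, mem_fce, mem_fce, fc_inr]
  refine ⟨fun e v hv => ?_, fun e => (erase_subset _ _).trans e⟩
  by_cases e' : v = s.b
  · exact e' ▸ hb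
  · exact e (mem_erase.2 ⟨e', hv⟩)

theorem inl_mem (o : ι → ℤ) (a : ι ⊕ s.X) :
    Sum.inl a ∈ fce (rf S s o) F ↔ a ∈ fce (xt S s) F := by
  rw [mem_fce, mem_fce]; rfl

theorem st_pure (hc : S.Cen) {b : V} (hb : b ∈ F) : fce S F ∩ S.st b ∩ fce S {b} = fce S {b} :=
  inter_eq_right.2 fun _ hi => mem_inter.2 ⟨fce_mono (singleton_subset_iff.2 hb) hi,
    S.mem_st.2 ((mem_pure hc).1 hi ▸ mem_singleton_self _)⟩

theorem st_link (hc : S.Cen) (b : V) :
    (fce S F ∩ S.st b) \ fce S {b} = (lk S b F).image Subtype.val := by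
  ext i
  rw [mem_sdiff, mem_inter, mem_pure hc, MS.mem_st, mem_image]
  exact ⟨fun e => ⟨⟨i, e.1.2, e.2⟩, mem_lk.2 e.1.1, rfl⟩, by
    rintro ⟨l, hl, rfl⟩
    exact ⟨⟨mem_lk.1 hl, l.2.1⟩, l.2.2⟩⟩

theorem sat_inl {α β : Type} [Fintype α] [DecidableEq α] [DecidableEq β] (G : Matrix α α ℝ)
    (H : Matrix β β ℝ) : Sat (fromBlocks G 0 0 H) (univ.image Sum.inl) := by
  intro i j hi hj
  obtain ⟨a, -, rfl⟩ := mem_image.1 hi
  rcases j with j | j
  · exact absurd (mem_image_of_mem _ (mem_univ j)) hj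
  · rfl

/-- the volume of a set of indices of a sum -/
theorem vl_blocks {α β : Type} [Fintype α] [Fintype β] [DecidableEq α] [DecidableEq β]
    {G : Matrix α α ℝ} {H : Matrix β β ℝ} (hG : G.PosDef) (hH : H.PosDef) {q : Finset (α ⊕ β)}
    {r : Finset α} {t : Finset β} (h1 : ∀ a, Sum.inl a ∈ q ↔ a ∈ r)
    (h2 : ∀ a, Sum.inr a ∈ q ↔ a ∈ t) : vl (fromBlocks G 0 0 H) q = vl G r * vl H t := by
  have e1 : q ∩ univ.image Sum.inl = r.image Sum.inl := by
    ext (a | a) <;> simp [h1]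
  have e2 : q \ univ.image Sum.inl = t.image Sum.inr := by
    ext (a | a) <;> simp [h2]
  rw [vl_split (pd_blocks hG hH) (sat_inl G H), e1, e2,
    vl_image (G := G) Sum.inl_injective fun _ _ _ _ => rfl,
    vl_image (G := H) Sum.inr_injective fun _ _ _ _ => rfl]

theorem qq_blocks {α β : Type} [Fintype α] [Fintype β] [DecidableEq α] [DecidableEq β]
    (G : Matrix α α ℝ) (H : Matrix β β ℝ) {q : Finset (α ⊕ β)}
    {r : Finset α} {t : Finset β} (h1 : ∀ a, Sum.inl a ∈ q ↔ a ∈ r)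
    (h2 : ∀ a, Sum.inr a ∈ q ↔ a ∈ t) (u : α ⊕ β → ℝ) : qq (fromBlocks G 0 0 H) (msk q u) =
      qq G (msk r (u ∘ Sum.inl)) + qq H (msk t (u ∘ Sum.inr)) := by
  rw [qq_fromBlocks]
  congr 2 <;> funext a <;> simp only [Function.comp, msk, h1, h2]

theorem vl_rf (h : S.Ok) (hc : S.Cen) (hx : (xt S s).Ok) (hb : s.b ∈ F) (o : ι → ℤ) :
    vl (rf S s o).G (fce (rf S s o) F) * vl S.G (fce S {s.b}) =
      vl (xt S s).G (fce (xt S s) F) * vl S.G (fce S F ∩ S.st s.b) := by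
  rw [vl_split h.pd ((cls_fce S {s.b}).sat h) (fce S F ∩ S.st s.b), st_pure hc hb, st_link hc,
    vl_image (G := S.G.submatrix Subtype.val Subtype.val) Subtype.val_injective
      fun _ _ _ _ => rfl]
  refine (congrArg (· * _) (vl_blocks hx.pd (h.pd.submatrix Subtype.val_injective) (inl_mem o)
    (inr_mem hb o))).trans ?_
  ring

theorem wt_ob (h : S.Ok) (hc : S.Cen) (hb : s.b ∈ F) (u : ι ⊕ s.X → ℤ) {a : ι → ℤ}
    (ha : ∀ i ∉ fce S F ∩ S.st s.b, a i = 0) :
    S.wt (fce S {s.b}) (ob S s.b a) *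
      (rf S s (ob S s.b a)).wt (fce (rf S s (ob S s.b a)) F) (zb S s u a) =
    (xt S s).wt (fce (xt S s) F) u *
      gs (S.fg (fce S F) s.b (toR (u ∘ Sum.inl))) fun i => (a i : ℝ) := by
  have e1 : (∀ i, i ∉ fce (rf S s (ob S s.b a)) F → zb S s u a i = 0) ↔
      ∀ i, i ∉ fce (xt S s) F → u i = 0 := by
    refine ⟨fun e i hi => e (Sum.inl i) (mt (inl_mem _ i).1 hi), fun e i hi => ?_⟩
    rcases i with i | l
    · exact e i (mt (inl_mem _ i).2 hi)
    · exact ha l fun e2 => hi ((inr_mem hb _ l).2 (mem_lk.2 (mem_inter.1 e2).1))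
  have e2 : ∀ i, i ∉ fce S {s.b} → ob S s.b a i = 0 := fun i hi =>
    if_neg (mt (mem_pure hc).2 hi)
  rw [wt_eq, wt_eq, wt_eq, if_pos e2, if_congr e1 rfl rfl]
  split_ifs with hu
  swap
  · simp
  set c := toR (mix (S.st s.b) a (u ∘ Sum.inl)) with hcdef
  have e3 : ln2 S (fce S F ∩ S.st s.b) c =
      qq (S.fg (fce S F) s.b (toR (u ∘ Sum.inl))) fun i => (a i : ℝ) := by
    rw [P057T1.ln2_fg h hc (cls_fce S F) s.b (toR (u ∘ Sum.inl)) c fun j hj => by
      rw [hcdef, toR_apply, toR_apply, mix_neg _ _ (mem_sdiff.1 hj).2]]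
    congr 1
    funext i
    rw [hcdef, toR_apply, mix_pos _ _ (mem_inter.1 i.2).2]
  have e4 : ∀ j ∈ fce S {s.b}, toR (ob S s.b a) j = c j := fun j hj => by
    have := (mem_pure hc).1 hj
    rw [hcdef, toR_apply, toR_apply, ob, if_pos this,
      mix_pos _ _ (S.mem_st.2 (this ▸ mem_singleton_self _))]
  have e5 : ln2 S (fce S {s.b}) (toR (ob S s.b a)) = ln2 S (fce S {s.b}) c :=
    P057T1.ln2_congr fun j hj => by rw [e4 j hj, P057T1.cls_p h (cls_fce S _) e4 hj]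
  have e6 : ln2 (rf S s (ob S s.b a)) (fce (rf S s (ob S s.b a)) F) (toR (zb S s u a)) =
      ln2 (xt S s) (fce (xt S s) F) (toR u) + ln2 S ((lk S s.b F).image Subtype.val) c := by
    refine (qq_blocks _ _ (inl_mem _) (inr_mem hb _) _).trans ?_
    unfold ln2
    rw [qq_msk_image (G := S.G.submatrix Subtype.val Subtype.val) Subtype.val_injective
      fun _ _ _ _ => rfl]
    congr 3
    funext l
    change _ - S.p (bv S s _ _) l = c l - _
    rw [bv_ob, hcdef, toR_apply, toR_apply, mix_pos _ _ (S.mem_st.2 l.2.1)]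
    rfl
  rw [gs, ← e3, ln2_split h ((cls_fce S {s.b}).sat h) (fce S F ∩ S.st s.b), st_pure hc hb,
    st_link hc, e5, e6, ← Real.exp_add, ← Real.exp_add]
  congr 1
  ring

/-- the term of the series over a point `p.1` of the extension and a centre `p.2` -/
def trm (S : MS V ι) (s : Stp V ι) (F : Finset V) (H : (ι → ℝ) → (ι → ℝ) → Prop)
    (p : (ι ⊕ s.X → ℤ) × (↥(fce S F ∩ S.st s.b) → ℤ)) : ℝ :=
  (xt S s).wt (fce (xt S s) F) p.1 *
    (gs (S.fg (fce S F) s.b (toR (p.1 ∘ Sum.inl))) (toR p.2) *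
      ind (H (toR (mix (S.st s.b) (put _ p.2 0) (p.1 ∘ Sum.inl)))
        (toR (mix (S.st s.b) (put _ p.2 0 + s.d • (p.1 ∘ Sum.inl)) (p.1 ∘ Sum.inl)))))

theorem trm_nonneg (H : (ι → ℝ) → (ι → ℝ) → Prop) (p) : 0 ≤ trm S s F H p :=
  mul_nonneg (MS.wt_nonneg _ _) (mul_nonneg (gs_pos _ _).le (P057T1.ind_nonneg _))

theorem dec (h : S.Ok) (hc : S.Cen) (hx : (xt S s).Ok) (hb : s.b ∈ F)
    (H : (ι → ℝ) → (ι → ℝ) → Prop) : Summable (trm S s F H) ∧
    (∑' p, trm S s F H p) / (vl (xt S s).G (fce (xt S s) F) * vl S.G (fce S F ∩ S.st s.b)) *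
      vl S.G (fce S {s.b}) ≤
    ∑' o, S.wt (fce S {s.b}) o * den (rf S s o) F fun w => H (bv S s o w) (mp S s o w) := by
  let f : (ι → ℤ) × ((ι ⊕ s.X) ⊕ Lk S s.b → ℤ) → ℝ := fun p => S.wt (fce S {s.b}) p.1 *
    ((rf S s p.1).wt (fce (rf S s p.1) F) p.2 *
      ind (H (bv S s p.1 (toR p.2)) (mp S s p.1 (toR p.2))))
  have f0 : ∀ p, 0 ≤ f p := fun p =>
    mul_nonneg (MS.wt_nonneg _ _) (mul_nonneg (MS.wt_nonneg _ _) (P057T1.ind_nonneg _))
  obtain ⟨C, hC⟩ := wt_bdd (V := V) (ok_rf h hx 0).pd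
  have s1 : ∀ o, Summable fun z => (rf S s o).wt (fce (rf S s o) F) z *
      ind (H (bv S s o (toR z)) (mp S s o (toR z))) := fun o =>
    (ok_rf h hx o).summable_re _ fun _ => P057T1.abs_ind _
  have hf : Summable f := by
    refine (summable_prod_of_nonneg (f := f) f0).2 ⟨fun o => ?_, ?_⟩
    · exact (s1 o).mul_left (S.wt (fce S {s.b}) o)
    simp only [f, tsum_mul_left]
    refine h.summable_re _ (C := C) fun o => ?_
    rw [abs_of_nonneg (tsum_nonneg fun _ => mul_nonneg (MS.wt_nonneg _ _) (P057T1.ind_nonneg _))]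
    exact ((s1 o).tsum_le_tsum (fun z => mul_le_of_le_one_right (MS.wt_nonneg _ _)
      (P057T1.ind_le _)) ((ok_rf h hx o).summable _)).trans (hC (rf S s o) rfl (ok_rf h hx o) _)
  let e : (ι ⊕ s.X → ℤ) × (↥(fce S F ∩ S.st s.b) → ℤ) → (ι → ℤ) × ((ι ⊕ s.X) ⊕ Lk S s.b → ℤ) :=
    fun p => (ob S s.b (put _ p.2 0), zb S s p.1 (put _ p.2 0))
  have he : Function.Injective e := by
    rintro ⟨u, x⟩ ⟨u', x'⟩ e1
    obtain ⟨e2, e3⟩ := Prod.ext_iff.1 e1
    refine Prod.ext (funext fun a => congrFun e3 (Sum.inl a)) (funext fun i => ?_)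
    by_cases hi : S.fc i = {s.b}
    · simpa only [e, ob, if_pos hi, put_coe] using congrFun e2 i
    · simpa only [e, zb, Sum.elim_inr, put_coe] using
        congrFun e3 (Sum.inr ⟨i, S.mem_st.1 (mem_inter.1 i.2).2, hi⟩)
  have e4 : trm S s F H = f ∘ e := funext fun p => by
    simp only [trm, f, e, Function.comp_apply, bv_ob, mp_ob]
    rw [← mul_assoc, ← mul_assoc, wt_ob h hc hb p.1 (a := put _ p.2 0) fun i hi => put_neg _ _ hi]
    congr 3
    funext i
    rw [put_coe, toR_apply]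
  have s2 : Summable (trm S s F H) := e4 ▸ hf.comp_injective he
  refine ⟨s2, ?_⟩
  have e5 : ∑' p, trm S s F H p ≤ ∑' p, f p :=
    Summable.tsum_le_tsum_of_inj e he (fun p _ => f0 p) (fun p => (congrFun e4 p).le) s2 hf
  have p1 := vl_pos h.pd (fce S {s.b})
  have p2 := vl_pos (ok_rf h hx 0).pd (fce (rf S s 0) F)
  rw [← vl_rf h hc hx hb 0, ← div_div, div_mul_cancel₀ _ p1.ne']
  refine (div_le_div_of_nonneg_right e5 p2.le).trans (le_of_eq ?_)
  rw [hf.tsum_prod, ← tsum_div_const]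
  refine tsum_congr fun o => ?_
  simp only [f, tsum_mul_left]
  exact mul_div_assoc _ _ _

end

end Vale.Agent.P057LU
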