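import Vale.Agent.P057LU.Dec

/-!
Upper bounds for Gaussian convolutions along cosets.
-/

set_option linter.unusedSectionVars false

open Matrix Finset
open scoped Real
open Vale.Agent.P267.H775 Vale.Agent.P057G Vale.Agent.P057MA Vale.Agent.P057HU

namespace Vale.Agent.P057LU

noncomputable section

/-- a Gaussian series with a quadratic exponent that is at least `m` -/
theorem poly_le {P : Type} [Fintype P] [DecidableEq P] {Q : Matrix P P ℝ} (hQ : Q.PosDef)
    {f : (P → ℝ) → ℝ} (l : P → ℝ) (c : ℝ) (hf : ∀ w, f w = qq Q w - 2 * (w ⬝ᵥ l) + c) {m : ℝ}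
    (hm : ∀ w, m ≤ f w) : Summable (fun w : P → ℤ => Real.exp (-(π * f (toR w)))) ∧
      ∑' w : P → ℤ, Real.exp (-(π * f (toR w))) ≤ Real.exp (-(π * m)) * th Q 0 := by
  have e : ∀ w : P → ℤ, Real.exp (-(π * f (toR w))) =
      Real.exp (-(π * (c - qq Q⁻¹ l))) * gs Q (toR w - Q⁻¹ *ᵥ l) := fun w => by
    rw [hf, sq_lin hQ, gs, ← Real.exp_add]
    congr 1
    ring
  have h1 := hm (Q⁻¹ *ᵥ l)
  rw [hf, sq_lin hQ, sub_self, qq_zero] at h1
  simp only [e]
  refine ⟨(summable_gs hQ _).mul_left _, ?_⟩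
  rw [tsum_mul_left]
  exact mul_le_mul (Real.exp_le_exp.2 (by nlinarith [Real.pi_pos])) (th_le_th_zero hQ _)
    (th_nonneg _ _) (Real.exp_pos _).le

theorem qq_conv {P : Type} [Fintype P] {A : Matrix P P ℝ} (hA : A.PosSemidef) {L d θ : ℝ}
    (hL : 0 < L) (hθ : θ * (L + d ^ 2) ≤ L) (y t : P → ℝ) :
    θ * qq A y ≤ L * qq A t + qq A (y - d • t) := by
  have p : 0 < L + d ^ 2 := by positivity
  have h1 := qq_nonneg hA (d • y - (L + d ^ 2) • t)
  have e : ∀ a b : ℝ, bb A (a • y) (b • t) = a * b * bb A y t := fun a b => by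
    simp only [bb, mulVec_smul, smul_dotProduct, dotProduct_smul, smul_eq_mul]
    ring
  have e1 := e 1 d
  rw [one_smul] at e1
  rw [qq_sub hA.1, qq_smul, qq_smul, e] at h1
  rw [qq_sub hA.1, qq_smul, e1]
  refine le_of_mul_le_mul_left ?_ p
  nlinarith [mul_le_mul_of_nonneg_right hθ (qq_nonneg hA y)]

variable {ι : Type} [DecidableEq ι] {r r' : Finset ι}

/-- restriction to a smaller set of coordinates -/
def res {α : Type} (hr : r ⊆ r') (v : r' → α) : r → α := fun i => v ⟨i, hr i.2⟩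

/-- residues modulo `d` on the coordinates outside `r` -/
def rsd (r r' : Finset ι) (d : ℕ) : Finset (r' → ℤ) :=
  Fintype.piFinset fun i => if i.1 ∈ r then {0} else Ico (0 : ℤ) d

theorem card_rsd (d : ℕ) : (rsd r r' d).card = d ^ (r' \ r).card := by
  rw [rsd, Fintype.card_piFinset]
  simp only [apply_ite card, card_singleton, Int.card_Ico, sub_zero, Int.toNat_natCast]
  rw [prod_coe_sort r' fun i => if i ∈ r then 1 else d, prod_ite, prod_const_one, one_mul,
    prod_const, sdiff_eq_filter]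

/-- convolution of a narrow Gaussian on `r` with a Gaussian on the larger set `r'` -/
theorem fib_up (hr : r ⊆ r') {A B : Matrix r r ℝ} {A' Q : Matrix r' r' ℝ} (hA : A.PosDef)
    (hB : B.PosDef) (hA' : A'.PosDef) (hQ : Q.PosDef) {d : ℕ} (hd : 0 < d) {L θ : ℝ} (hL : 0 < L)
    (h0 : 0 < θ) (hθ : θ * (L + d ^ 2) ≤ L) (e1 : ∀ t, qq B t = L * qq A t)
    (e2 : ∀ v, qq A (res hr v) ≤ qq A' v)
    (e3 : ∀ v, qq Q v = L * qq A (res hr v) + d ^ 2 * qq A' v) {m : (r → ℤ) → ℝ} {C : ℝ}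
    (m0 : ∀ y, 0 ≤ m y) (m1 : ∀ y, |m y| ≤ C) :
    ∑' t, gs B (toR t) * ∑' x, gs A' (toR x) * m (res hr x + d • t) ≤
      d ^ (r' \ r).card * th Q 0 * ∑' y, gs (θ • A) (toR y) * m y := by
  let g : (r → ℤ) × (r' → ℤ) → ℝ := fun p => gs B (toR p.1) * gs A' (toR p.2) *
    m (res hr p.2 + d • p.1)
  let c : (r → ℤ) → (r' → ℤ) → r' → ℤ := fun y ρ i => if h : i.1 ∈ r then y ⟨i, h⟩ else ρ i
  let ψ : (r → ℤ) × (rsd r r' d × (r' → ℤ)) → (r → ℤ) × (r' → ℤ) := fun p =>
    (res hr p.2.2, c p.1 p.2.1 - d • p.2.2)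
  let φ : (r → ℤ) × (r' → ℤ) → (r → ℤ) × (rsd r r' d × (r' → ℤ)) := fun p =>
    (res hr p.2 + d • p.1, ⟨fun i => if i.1 ∈ r then 0 else p.2 i % d,
      Fintype.mem_piFinset.2 fun i => by
        split_ifs
        · exact mem_singleton_self _
        · exact mem_Ico.2 ⟨Int.emod_nonneg _ (by omega), Int.emod_lt_of_pos _ (by omega)⟩⟩,
      fun i => if h : i.1 ∈ r then p.1 ⟨i, h⟩ else -(p.2 i / d))
  have hφ : Function.LeftInverse ψ φ := fun p => by
    refine Prod.ext (funext fun i => dif_pos i.2) (funext fun i => ?_)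
    by_cases h : i.1 ∈ r
    · simp [ψ, φ, c, h, res]
    · simp only [ψ, φ, c, h, Pi.sub_apply, Pi.smul_apply, dite_false, ite_false]
      rw [nsmul_eq_mul]
      linear_combination Int.emod_add_mul_ediv (p.2 i) d
  have rc : ∀ y ρ, res hr (c y ρ) = y := fun y ρ => funext fun i => dif_pos i.2
  have e4 : ∀ y ρ w, g (ψ (y, ρ, w)) = m y * Real.exp (-(π * (L * qq A (res hr (toR w)) +
      qq A' (toR (c y ρ) - (d : ℝ) • toR w)))) := fun y ρ w => by
    have a1 : res hr (c y ρ - d • w) + d • res hr w = y := by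
      conv_rhs => rw [← rc y ρ]
      funext i
      simp [res]
    have a2 : toR (c y ρ - d • w) = toR (c y ρ) - (d : ℝ) • toR w := by
      funext i
      simp
    simp only [g, ψ, a1, a2, gs, e1]
    rw [mul_comm (m y), ← Real.exp_add, mul_add, neg_add]
    rfl
  have k : ∀ (y : r → ℤ) (ρ : r' → ℤ), _ := fun y ρ => poly_le hQ
    (f := fun w => L * qq A (res hr w) + qq A' (toR (c y ρ) - (d : ℝ) • w))
    ((d : ℝ) • A' *ᵥ toR (c y ρ)) (qq A' (toR (c y ρ))) (fun w => by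
      rw [e3, qq_sub hA'.1, qq_smul, bb_comm hA'.1]
      simp only [bb, smul_dotProduct, dotProduct_smul, smul_eq_mul]
      ring) (m := θ * qq A (toR y)) fun w => by
      refine (qq_conv hA.posSemidef hL hθ (toR y) (res hr w)).trans ?_
      have a1 : toR y - (d : ℝ) • res hr w = res hr (toR (c y ρ) - (d : ℝ) • w) := by
        conv_lhs => rw [← rc y ρ]
        rfl
      rw [a1]
      exact add_le_add le_rfl (e2 _)
  have g0 : ∀ p, 0 ≤ g p := fun p =>
    mul_nonneg (mul_nonneg (gs_pos _ _).le (gs_pos _ _).le) (m0 _)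
  have k1 : ∀ y, Summable fun p => g (ψ (y, p)) := fun y =>
    (summable_prod_of_nonneg (f := fun p => g (ψ (y, p))) fun p => g0 _).2
      ⟨fun ρ => by simp only [e4]; exact (k y ρ).1.mul_left _, Summable.of_finite⟩
  have k2 : ∀ y, ∑' p, g (ψ (y, p)) ≤ d ^ (r' \ r).card * th Q 0 * (gs (θ • A) (toR y) * m y) :=
    fun y => by
      rw [(k1 y).tsum_prod, tsum_fintype]
      refine (sum_le_card_nsmul _ _ (m y * (Real.exp (-(π * (θ * qq A (toR y)))) * th Q 0))
        fun ρ _ => ?_).trans (le_of_eq ?_)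
      · simp only [e4, tsum_mul_left]
        exact mul_le_mul_of_nonneg_left (k y ρ).2 (m0 y)
      · rw [card_univ, Fintype.card_coe, card_rsd, nsmul_eq_mul, gs, qq_smul_mat]
        push_cast
        ring
  have s1 := ((wt_gs0 (hA.smul h0)).summ m1).mul_left ((d : ℝ) ^ (r' \ r).card * th Q 0)
  have s2 := s1.of_nonneg_of_le (fun y => tsum_nonneg fun p => g0 _) k2
  have s3 : Summable fun p => g (ψ p) :=
    (summable_prod_of_nonneg (f := fun p => g (ψ p)) fun p => g0 _).2 ⟨k1, s2⟩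
  rw [← (wt_gs0 hB).fub (wt_gs0 hA') (F := fun p => m (res hr p.2 + d • p.1)) fun _ => m1 _,
    ← tsum_mul_left]
  refine le_trans (Summable.tsum_le_tsum_of_inj φ hφ.injective (fun _ _ => g0 _)
    (fun p => (congrArg g (hφ p)).ge) (((wt_gs0 hB).prod (wt_gs0 hA')).summ fun _ => m1 _) s3) ?_
  rw [s3.tsum_prod]
  exact s2.tsum_le_tsum k2 s1

end

end Vale.Agent.P057LU
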