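import Vale.Agent.P057LU.Upp
import Vale.Agent.P057IV.Plan

/-!
Moment bounds along chains of refinements survive for most base points.
-/

set_option linter.unusedSectionVars false

open Matrix Finset
open Vale.Agent.P267.H775 Vale.Agent.P057G Vale.Agent.P057MA Vale.Agent.P057IV
open Vale.Agent.P057T1 (ind)

namespace Vale.Agent.P057LU

noncomputable section

variable {V : Type} [Fintype V] [DecidableEq V]

/-- a dictionary `Dc` with its set of core labels, and a moment bound for `g` on the core -/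
def Mom (X : Sy V)
    (Dc : ℕ → (X' : Sy V) → ((X'.ι → ℝ) → X.ι → ℝ) → Finset X'.ι → Prop)
    (g : (X.ι → ℝ) → ℝ) (a A : ℕ → ℝ) (j : ℕ) (X' : Sy V) (f : (X'.ι → ℝ) → X.ι → ℝ) : Prop :=
  ∃ q, Dc j X' f q ∧
    ∑' z, (nar X'.S (a j)).wt q z * g (f (toR z)) ^ 2 ^ j ≤ A j * vl X'.S.G q

theorem wt_nar_mono {ι : Type} [Fintype ι] [DecidableEq ι] {S : MS V ι} (h : S.Ok) {a a' : ℝ}
    (h1 : a' ^ 2 ≤ a ^ 2) (q : Finset ι) (z : ι → ℤ) : (nar S a).wt q z ≤ (nar S a').wt q z := by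
  rw [wt_eq, wt_eq, ln2_nar, ln2_nar]
  split_ifs
  · exact Real.exp_le_exp.2 (neg_le_neg (mul_le_mul_of_nonneg_left
      (mul_le_mul_of_nonneg_right h1 (ln2_nonneg h _)) Real.pi_pos.le))
  · exact le_rfl

/-- the moment oracle -/
theorem clos_mom {B : Finset V} {Λ P R Z ε K C : ℝ} {X : Sy V}
    {Dc : ℕ → (X' : Sy V) → ((X'.ι → ℝ) → X.ι → ℝ) → Finset X'.ι → Prop}
    {g : (X.ι → ℝ) → ℝ} {a A : ℕ → ℝ} (hΛ : 1 ≤ Λ) (hZ : 3 ≤ Z) (g1 : ∀ y, 1 ≤ g y)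
    (gC : ∀ y, g y ≤ C) (a0 : ∀ j, 0 < a j) (a1 : ∀ j, a j ≤ 1)
    (a2 : ∀ j, a (j + 1) ^ 2 * (1 + 1 / Λ ^ 2) ≤ a j ^ 2) (A0 : ∀ j, 0 < A j)
    (A1 : ∀ j, A (j + 1) ≤ A j) {k : ℕ} (A2 : ∀ j < k, K ^ 4 * (4 + A (j + 1)) ≤ ε * A j)
    (d0 : ∀ j X' f q, Dc (j + 1) X' f q → Dc j X' f q)
    (d1 : ∀ j (X' : Sy V) f q, Dc (j + 1) X' f q → j < k ∧ X'.S.Ok ∧ Cls X'.S q ∧
      On q (fun z => g (f z)) ∧ (a (j + 1))⁻¹ ^ Fintype.card X'.ι ≤ K)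
    (d2 : ∀ j (X' : Sy V) f q (s : Stp V X'.ι), Dc (j + 1) X' f q → X'.S.Ok → X'.S.Cen →
      Good X'.S s B Λ P R → ∀ o, Dc j (X'.rf s o) (f ∘ mp X'.S s o) (qr X'.S s q)) :
    Clos B Λ P R Z ε X (Mom X Dc g a A) := by
  have g0 : ∀ y n, 0 ≤ g y ^ n := fun y n => pow_nonneg (zero_le_one.trans (g1 y)) n
  have g2 : ∀ y n, |g y ^ n| ≤ C ^ n := fun y n => by
    rw [abs_of_nonneg (g0 y n)]
    exact pow_le_pow_left₀ (zero_le_one.trans (g1 y)) (gC y) n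
  refine ⟨fun j X' f ⟨q, h1, h2⟩ => ⟨q, d0 _ _ _ _ h1, ?_⟩, fun j X' f s ⟨q, h1, h2⟩ h hc hs hm => ?_⟩
  · have h := (d1 _ _ _ _ h1).2.1
    refine le_trans ?_ (h2.trans (mul_le_mul_of_nonneg_right (A1 j) (vl_pos h.pd q).le))
    refine ((ok_nar h (a0 _).ne').summable_re q fun z => g2 _ _).tsum_le_tsum (fun z => ?_)
      ((ok_nar h (a0 _).ne').summable_re q fun z => g2 _ _)
    refine mul_le_mul (wt_nar_mono h (le_trans (le_mul_of_one_le_right (sq_nonneg _)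
      (le_add_of_nonneg_right (by positivity))) (a2 j)) q z)
      (pow_le_pow_right₀ (g1 _) (Nat.pow_le_pow_right two_pos j.le_succ)) (g0 _ _)
      (MS.wt_nonneg _ _)
  · obtain ⟨k0, -, k1, k2, k3⟩ := d1 _ _ _ _ h1
    refine upp_bad h hc hs hΛ hZ hm k1 (a0 _) (a0 j) (a1 j) (a2 j) k3
      (M := fun y => g (f y) ^ 2 ^ j) (fun _ => g0 _ _) (fun _ => g2 _ _)
      (fun z z' e => congrArg (· ^ 2 ^ j) (k2 z z' e)) (A' := A (j + 1))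
      (by simpa only [← pow_mul, ← pow_succ] using h2) (A0 j) (A2 j k0) fun o hB => ?_
    exact le_of_not_ge fun e => hB ⟨qr X'.S s q, d2 _ _ _ _ s h1 h hc hs o, e⟩

/-- scales for `k` steps -/
def sca (Λ : ℝ) (j : ℕ) : ℝ := Real.exp (-(j / Λ ^ 2))

theorem sca_pos (Λ : ℝ) (j : ℕ) : 0 < sca Λ j := Real.exp_pos _

theorem sca_le (Λ : ℝ) (j : ℕ) : sca Λ j ≤ 1 :=
  Real.exp_le_one_iff.2 (neg_nonpos.2 (by positivity))

theorem sca_zero (Λ : ℝ) : sca Λ 0 = 1 := by simp [sca]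

theorem sca_step (Λ : ℝ) (j : ℕ) : sca Λ (j + 1) ^ 2 * (1 + 1 / Λ ^ 2) ≤ sca Λ j ^ 2 := by
  have h1 : sca Λ (j + 1) * Real.exp (1 / Λ ^ 2) = sca Λ j := by
    rw [sca, sca, ← Real.exp_add]
    congr 1
    push_cast
    ring
  have h2 := Real.add_one_le_exp (1 / Λ ^ 2)
  have h3 : 0 ≤ 1 / Λ ^ 2 := by positivity
  rw [← h1, mul_pow]
  exact mul_le_mul_of_nonneg_left (by nlinarith) (sq_nonneg _)

theorem sca_pow (Λ : ℝ) (j n : ℕ) : (sca Λ j)⁻¹ ^ n = Real.exp (n * j / Λ ^ 2) := by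
  rw [sca, ← Real.exp_neg, neg_neg, ← Real.exp_nat_mul, mul_div_assoc]

/-- bounds for the moments, `k` steps -/
def amo (t A : ℝ) (k j : ℕ) : ℝ := t ^ (k - j) * A

theorem amo_pos {t A : ℝ} (ht : 1 ≤ t) (hA : 0 < A) (k j : ℕ) : 0 < amo t A k j := by
  unfold amo; positivity

theorem amo_anti {t A : ℝ} (ht : 1 ≤ t) (hA : 0 < A) (k j : ℕ) : amo t A k (j + 1) ≤ amo t A k j :=
  mul_le_mul_of_nonneg_right (pow_le_pow_right₀ ht (by omega)) hA.le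

theorem amo_step {t A K ε : ℝ} (ht : 1 ≤ t) (hA : 4 ≤ A) (hε : 2 * K ^ 4 ≤ ε * t) {k j : ℕ}
    (hj : j < k) : K ^ 4 * (4 + amo t A k (j + 1)) ≤ ε * amo t A k j := by
  have h1 : amo t A k j = t * amo t A k (j + 1) := by
    rw [amo, amo, ← mul_assoc, ← pow_succ']
    congr 2
    omega
  have h2 : 4 ≤ amo t A k (j + 1) :=
    hA.trans (le_mul_of_one_le_left (by linarith) (one_le_pow₀ ht))
  have h3 : 0 ≤ K ^ 4 := by positivity
  rw [h1]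
  nlinarith

end

end Vale.Agent.P057LU
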